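import Mathlib

/-!
P147: the dyadic estimate giving an integrable lateral displacement.

For an iid sequence of blocks (height `H`, displacement `D`) the hypothesis `hkey` bounds the
probability of a bad block by a geometric factor times elementary large deviations. Pointwise
dyadic identities turn this into a uniform bound on `E (min D R)`; no recursion is needed.
-/

open MeasureTheory ProbabilityTheory Filter Finset
open scoped ENNReal

namespace Vale.Agent.P147.Dir

variable {β : Type*} [MeasurableSpace β]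

/-- The height stays above a cone and the lateral sums below it. -/
def coneSet (H D : β → ℝ) (lam c0 : ℝ) (N : ℕ) : Set (ℕ → β) :=
  {s | (∀ j : ℕ, c0 * j ≤ ∑ i ∈ range j, H (s i)) ∧
    ∀ j ≤ N, ∑ i ∈ range j, D (s i) ≤ lam * j}

/-- A large displacement in a block finished below `top`. -/
def badSet (H D : β → ℝ) (top z : ℝ) (M : ℕ) : Set (ℕ → β) :=
  {s | ∃ i < M, z < D (s i) ∧ ∑ j ∈ range (i + 1), H (s j) ≤ top}

section Core

variable (ν : Measure β) [IsProbabilityMeasure ν]


private lemma map_coord (i : ℕ) : MeasurePreserving (fun s : ℕ → β => s i) (Measure.infinitePi (fun _ : ℕ => ν)) ν :=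
  measurePreserving_eval_infinitePi (fun _ : ℕ => ν) i

private lemma map_shift :
    MeasurePreserving (fun (s : ℕ → β) i => s (i + 1)) (Measure.infinitePi (fun _ : ℕ => ν)) (Measure.infinitePi (fun _ : ℕ => ν)) :=
  ⟨by fun_prop, Measure.map_infinitePi_infinitePi_of_inj (P := fun _ : ℕ => ν)
    (fun _ _ h => by simpa using h)⟩

private lemma integral_coord {f : β → ℝ} (hf : Measurable f) (i : ℕ) :
    ∫ s, f (s i) ∂(Measure.infinitePi (fun _ : ℕ => ν)) = ∫ b, f b ∂ν := by
  conv_rhs => rw [← (map_coord ν i).map_eq]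
  rw [integral_map (map_coord ν i).aemeasurable hf.aestronglyMeasurable]

private lemma integrable_coord {f : β → ℝ} (hf : Integrable f ν) (i : ℕ) :
    Integrable (fun s : ℕ → β => f (s i)) (Measure.infinitePi (fun _ : ℕ => ν)) :=
  (map_coord ν i).integrable_comp_of_integrable hf

private lemma real_coord {A : Set β} (hA : MeasurableSet A) (i : ℕ) :
    ((Measure.infinitePi (fun _ : ℕ => ν))).real {s | s i ∈ A} = ν.real A := by
  rw [measureReal_def, measureReal_def]
  exact congrArg ENNReal.toReal ((map_coord ν i).measure_preimage hA.nullMeasurableSet)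

/-- Two different coordinates are independent copies. -/
private lemma integral_pair {f g : β → ℝ} (hf : Integrable f ν) (hg : Integrable g ν) {i j : ℕ}
    (hij : i ≠ j) :
    Integrable (fun s : ℕ → β => f (s i) * g (s j)) (Measure.infinitePi (fun _ : ℕ => ν)) ∧
      ∫ s, f (s i) * g (s j) ∂(Measure.infinitePi (fun _ : ℕ => ν)) = (∫ b, f b ∂ν) * ∫ b, g b ∂ν := by
  have hmap : MeasurePreserving (fun s : ℕ → β => (s i, s j)) (Measure.infinitePi (fun _ : ℕ => ν)) (ν.prod ν) :=
    ⟨by fun_prop, Measure.infinitePi_map_eval_prod hij⟩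
  have hint := hf.mul_prod hg
  refine ⟨hmap.integrable_comp_of_integrable hint, ?_⟩
  rw [← integral_prod_mul, ← hmap.map_eq, integral_map hmap.aemeasurable]
  rw [hmap.map_eq]
  exact hint.aestronglyMeasurable

/-- Running maximum of the partial sums, written from the first step. -/
private def runMax (g : β → ℝ) : ℕ → (ℕ → β) → ℝ
  | 0, _ => 0
  | k + 1, s => max 0 (g (s 0) + runMax g k fun i => s (i + 1))

omit [MeasurableSpace β] in
private lemma runMax_nonneg (g : β → ℝ) : ∀ k s, 0 ≤ runMax g k s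
  | 0, _ => le_rfl
  | _ + 1, _ => le_max_left _ _

omit [MeasurableSpace β] in
private lemma runMax_mono (g : β → ℝ) : ∀ k s, runMax g k s ≤ runMax g (k + 1) s
  | 0, _ => le_max_left _ _
  | k + 1, s => max_le_max le_rfl (by
      have := runMax_mono g k (fun i => s (i + 1))
      linarith)

omit [MeasurableSpace β] in
private lemma sum_le_runMax (g : β → ℝ) : ∀ k, ∀ j ≤ k, ∀ s : ℕ → β,
    ∑ i ∈ range j, g (s i) ≤ runMax g k s := by
  intro k
  induction k with
  | zero => intro j hj s; simp [Nat.le_zero.1 hj, runMax]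
  | succ k ih =>
    intro j hj s
    cases j with
    | zero => simpa using runMax_nonneg g (k + 1) s
    | succ j =>
      rw [sum_range_succ']
      refine le_trans ?_ (le_max_right _ _)
      have := ih j (by omega) fun i => s (i + 1)
      linarith

private lemma measurable_runMax {g : β → ℝ} (hg : Measurable g) : ∀ k, Measurable (runMax g k)
  | 0 => measurable_const
  | k + 1 => measurable_const.max ((hg.comp (measurable_pi_apply 0)).add
      ((measurable_runMax hg k).comp (by fun_prop)))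

omit [MeasurableSpace β] in
private lemma runMax_le {g : β → ℝ} {C : ℝ} (hC : 0 ≤ C) (hg : ∀ b, |g b| ≤ C) :
    ∀ k s, runMax g k s ≤ C * (k : ℝ)
  | 0, _ => by simp [runMax]
  | k + 1, s => by
      have h1 := runMax_le hC hg k fun i => s (i + 1)
      have h2 := (abs_le.1 (hg (s 0))).2
      push_cast
      refine max_le (by positivity) ?_
      linarith

/-- Hopf's maximal ergodic inequality. -/
private lemma hopf {g : β → ℝ} (hgm : Measurable g) {C : ℝ} (hC : 0 ≤ C)
    (hg : ∀ b, |g b| ≤ C) (N : ℕ) :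
    0 ≤ ∫ s, {t | 0 < runMax g N t}.indicator (fun t => g (t 0)) s ∂(Measure.infinitePi (fun _ : ℕ => ν)) := by
  cases N with
  | zero => simp [runMax]
  | succ N =>
    let F := runMax g (N + 1)
    let sh : (ℕ → β) → ℕ → β := fun s i => s (i + 1)
    have hF : Integrable F (Measure.infinitePi (fun _ : ℕ => ν)) :=
      Integrable.of_bound (measurable_runMax hgm _).aestronglyMeasurable (C * (N + 1 : ℕ))
        (ae_of_all _ fun s => by
          rw [Real.norm_eq_abs, abs_of_nonneg (runMax_nonneg _ _ _)]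
          exact runMax_le hC hg _ s)
    have hFs : Integrable (fun s => F (sh s)) (Measure.infinitePi (fun _ : ℕ => ν)) :=
      (map_shift ν).integrable_comp_of_integrable hF
    have heq : ∫ s, F (sh s) ∂(Measure.infinitePi (fun _ : ℕ => ν)) = ∫ s, F s ∂(Measure.infinitePi (fun _ : ℕ => ν)) := by
      conv_rhs => rw [← (map_shift ν).map_eq]
      rw [integral_map (map_shift ν).aemeasurable (measurable_runMax hgm _).aestronglyMeasurable]
    have hge : ∀ s, F s - F (sh s) ≤ {t | 0 < F t}.indicator (fun t => g (t 0)) s := by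
      intro s
      have hdef : F s = max 0 (g (s 0) + runMax g N (sh s)) := rfl
      have hm : runMax g N (sh s) ≤ F (sh s) := runMax_mono g N (sh s)
      by_cases hp : 0 < F s
      · rw [Set.indicator_of_mem (show s ∈ {t | 0 < F t} from hp)]
        rcases max_choice 0 (g (s 0) + runMax g N (sh s)) with h | h
        · rw [hdef, h] at hp; exact absurd hp (lt_irrefl _)
        · rw [hdef, h]; linarith
      · rw [Set.indicator_of_notMem (show s ∉ {t | 0 < F t} from hp)]
        have : 0 ≤ F (sh s) := runMax_nonneg _ _ _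
        linarith
    calc (0:ℝ) = ∫ s, (F s - F (sh s)) ∂(Measure.infinitePi (fun _ : ℕ => ν)) := by rw [integral_sub hF hFs, heq, sub_self]
      _ ≤ _ := integral_mono (hF.sub hFs)
        ((Integrable.of_bound (f := fun t : ℕ → β => g (t 0))
          (hgm.comp (measurable_pi_apply 0)).aestronglyMeasurable C
          (ae_of_all _ fun s => hg (s 0))).indicator
            (measurableSet_lt measurable_const (measurable_runMax hgm _))) hge

private lemma runMax_prob_upper {f : β → ℝ} (hfm : Measurable f) {R lam : ℝ} (hR : 0 ≤ R)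
    (hf0 : ∀ b, 0 ≤ f b) (hfR : ∀ b, f b ≤ R) (hl : 0 < lam) (N : ℕ) :
    ((Measure.infinitePi (fun _ : ℕ => ν))).real {s | 0 < runMax (fun b => f b - lam) N s} ≤ (∫ b, f b ∂ν) / lam := by
  set E := {s : ℕ → β | 0 < runMax (fun b => f b - lam) N s}
  have hE : MeasurableSet E := measurableSet_lt measurable_const
    (measurable_runMax (hfm.sub_const lam) _)
  have h := hopf ν (hfm.sub_const lam) (C := R + lam) (by linarith)
    (fun b => abs_le.2 ⟨by linarith [hf0 b], by linarith [hfR b]⟩) N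
  have hi : Integrable f ν := Integrable.of_bound hfm.aestronglyMeasurable R
    (ae_of_all _ fun b => by rw [Real.norm_eq_abs, abs_of_nonneg (hf0 b)]; exact hfR b)
  have h2 : ∫ s, E.indicator (fun t => f (t 0) - lam) s ∂(Measure.infinitePi (fun _ : ℕ => ν)) ≤
      (∫ b, f b ∂ν) - lam * ((Measure.infinitePi (fun _ : ℕ => ν))).real E := by
    have hi2 : Integrable (E.indicator fun _ : ℕ → β => lam) (Measure.infinitePi (fun _ : ℕ => ν)) :=
      (integrable_const lam).indicator hE
    calc ∫ s, E.indicator (fun t => f (t 0) - lam) s ∂(Measure.infinitePi (fun _ : ℕ => ν))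
        ≤ ∫ s, (f (s 0) - E.indicator (fun _ => lam) s) ∂(Measure.infinitePi (fun _ : ℕ => ν)) := by
          refine integral_mono (((integrable_coord ν hi 0).sub (integrable_const lam)).indicator hE)
            ((integrable_coord ν hi 0).sub hi2) fun s => ?_
          by_cases hs : s ∈ E
          · simp [hs]
          · simp [hs, hf0]
      _ = _ := by
          rw [integral_sub (integrable_coord ν hi 0) hi2, integral_coord ν hfm 0,
            integral_indicator_const lam hE, smul_eq_mul, mul_comm]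
  rw [le_div_iff₀ hl]
  linarith [h.trans h2]

/-- The heights stay above a linear cone with high probability. -/
private lemma exists_cone {H : β → ℝ} (hHm : Measurable H) (hH0 : ∀ᵐ b ∂ν, 0 < H b) :
    ∃ c0 > 0, ((Measure.infinitePi (fun _ : ℕ => ν))).real {s | ∀ j : ℕ, c0 * j ≤ ∑ i ∈ range j, H (s i)} ≥ 7 / 8 := by
  have hlim : Tendsto (fun k : ℕ => ν {b | H b < 1 / ((k:ℝ) + 1)}) atTop (nhds 0) := by
    have hemp : ν (⋂ k : ℕ, {b | H b < 1 / ((k:ℝ) + 1)}) = 0 := by
      refine measure_mono_null (t := {b | ¬ 0 < H b}) ?_ (ae_iff.1 hH0)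
      intro b hb hpos
      obtain ⟨k, hk⟩ := exists_nat_one_div_lt hpos
      exact absurd (Set.mem_iInter.1 hb k) (not_lt.2 hk.le)
    rw [← hemp]
    exact tendsto_measure_iInter_atTop
      (fun k => (measurableSet_lt hHm measurable_const).nullMeasurableSet)
      (fun k l hkl b hb => lt_of_lt_of_le (α := ℝ) hb
        (div_le_div_of_nonneg_left zero_le_one (by positivity)
          (by exact_mod_cast Nat.add_le_add_right hkl 1))) ⟨0, measure_ne_top _ _⟩
  obtain ⟨k, hk⟩ := (hlim.eventually_le_const (show (0:ℝ≥0∞) < ENNReal.ofReal (1 / 16) by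
    simp)).exists
  set ε : ℝ := 1 / ((k:ℝ) + 1)
  have hε : 0 < ε := by positivity
  set A := {b | H b < ε}
  have hA : MeasurableSet A := measurableSet_lt hHm measurable_const
  have hη : ν.real A ≤ 1 / 16 := ENNReal.toReal_le_of_le_ofReal (by norm_num) hk
  let g : β → ℝ := fun b => ε / 2 - Aᶜ.indicator (fun _ => ε) b
  have hgm : Measurable g := measurable_const.sub (measurable_const.indicator hA.compl)
  have hgb : ∀ b, |g b| ≤ ε := fun b => by
    by_cases hb : b ∈ A <;> simp [g, hb, abs_le] <;> constructor <;> linarith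
  have hN : ∀ N, ((Measure.infinitePi (fun _ : ℕ => ν))).real {s | 0 < runMax g N s} ≤ 1 / 8 := by
    intro N
    set E := {s : ℕ → β | 0 < runMax g N s}
    have hE : MeasurableSet E := measurableSet_lt measurable_const (measurable_runMax hgm _)
    let a : (ℕ → β) → ℝ := fun s => {t : ℕ → β | t 0 ∈ A}.indicator (fun _ => ε) s
    have hi : Integrable a (Measure.infinitePi (fun _ : ℕ => ν)) :=
      (integrable_const ε).indicator (measurable_pi_apply 0 hA)
    have hi2 : Integrable (E.indicator fun _ : ℕ → β => ε / 2) (Measure.infinitePi (fun _ : ℕ => ν)) :=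
      (integrable_const (ε / 2)).indicator hE
    have h := hopf ν hgm hε.le hgb N
    have h2 : ∫ s, E.indicator (fun t => g (t 0)) s ∂(Measure.infinitePi (fun _ : ℕ => ν)) ≤
        ε * ν.real A - ε / 2 * ((Measure.infinitePi (fun _ : ℕ => ν))).real E := by
      calc ∫ s, E.indicator (fun t => g (t 0)) s ∂(Measure.infinitePi (fun _ : ℕ => ν))
          ≤ ∫ s, (a s - E.indicator (fun _ => ε / 2) s) ∂(Measure.infinitePi (fun _ : ℕ => ν)) := by
            refine integral_mono ((Integrable.of_bound (f := fun t : ℕ → β => g (t 0))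
              (hgm.comp (measurable_pi_apply 0)).aestronglyMeasurable ε
              (ae_of_all _ fun s => hgb (s 0))).indicator hE) (hi.sub hi2) fun s => ?_
            by_cases hs : s ∈ E <;> by_cases h0 : s 0 ∈ A <;> simp [a, g, hs, h0] <;> linarith
        _ = _ := by
            have hA0 : MeasurableSet {t : ℕ → β | t 0 ∈ A} := measurable_pi_apply 0 hA
            rw [integral_sub hi hi2, integral_indicator_const _ hE,
              show ∫ s, a s ∂(Measure.infinitePi (fun _ : ℕ => ν)) = ((Measure.infinitePi (fun _ : ℕ => ν))).real {t : ℕ → β | t 0 ∈ A} * ε by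
                simp only [a]; rw [integral_indicator_const _ hA0, smul_eq_mul],
              real_coord ν hA 0, smul_eq_mul]
            ring
    nlinarith [h.trans h2]
  refine ⟨ε / 2, by positivity, ?_⟩
  set G := {s : ℕ → β | ∀ j : ℕ, ε / 2 * j ≤ ∑ i ∈ range j, H (s i)}
  have hG : MeasurableSet G := by
    simp only [G, Set.ofPred_forall]
    exact MeasurableSet.iInter fun j => measurableSet_le measurable_const (by fun_prop)
  have hnn : ∀ᵐ s ∂(Measure.infinitePi (fun _ : ℕ => ν)), ∀ i, 0 < H (s i) :=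
    ae_all_iff.2 fun i => (map_coord ν i).quasiMeasurePreserving.ae hH0
  have hle : ((Measure.infinitePi (fun _ : ℕ => ν))) Gᶜ ≤ ENNReal.ofReal (1 / 8) := by
    calc ((Measure.infinitePi (fun _ : ℕ => ν))) Gᶜ ≤ ((Measure.infinitePi (fun _ : ℕ => ν))) (⋃ N, {s | 0 < runMax g N s}) := by
          refine measure_mono_ae ?_
          filter_upwards [hnn] with s hs hsG
          change s ∈ Gᶜ at hsG
          simp only [G, Set.mem_compl_iff, Set.mem_ofPred_eq, not_forall, not_le] at hsG
          obtain ⟨j, hj⟩ := hsG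
          refine Set.mem_iUnion.2 ⟨j, lt_of_lt_of_le ?_ (sum_le_runMax g j j le_rfl s)⟩
          calc (0:ℝ) < ε / 2 * j - ∑ i ∈ range j, H (s i) := by linarith
            _ = ∑ i ∈ range j, (ε / 2 - H (s i)) := by simp [mul_comm]
            _ ≤ _ := sum_le_sum fun i _ => by
              by_cases hb : s i ∈ A
              · simp [g, hb, (hs i).le]
              · have : ε ≤ H (s i) := not_lt.1 hb
                simp [g, hb]; linarith
      _ = ⨆ N, ((Measure.infinitePi (fun _ : ℕ => ν))) {s | 0 < runMax g N s} :=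
          Monotone.measure_iUnion (monotone_nat_of_le_succ fun N s hs =>
            lt_of_lt_of_le hs (runMax_mono g N s))
      _ ≤ _ := iSup_le fun N => (ENNReal.le_ofReal_iff_toReal_le (measure_ne_top _ _)
          (by norm_num)).2 (hN N)
  have := ENNReal.toReal_le_of_le_ofReal (by norm_num) hle
  rw [← measureReal_def, measureReal_compl hG, probReal_univ] at this
  linarith

/-- A bad block below `top` is likely as soon as big displacements are. -/
private lemma bad_lower {H D : β → ℝ} (hHm : Measurable H) (hDm : Measurable D)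
    (hH0 : ∀ᵐ b ∂ν, 0 < H b) (hH : Integrable H ν) {top z : ℝ} (M : ℕ) (htop : 0 < top)
    (hb : (M : ℝ) * ν.real {b | z < D b} ≤ 1 / 8) (hm : 8 * (M : ℝ) * (∫ b, H b ∂ν) ≤ top) :
    (M : ℝ) * (5 / 8 * ν.real {b | z < D b} - ν.real {b | top / 2 < H b}) ≤
      ((Measure.infinitePi (fun _ : ℕ => ν))).real (badSet H D top z M) := by
  classical
  set B := {b | z < D b} with hBdef
  have hB : MeasurableSet B := measurableSet_lt measurable_const hDm
  set U := {b | top / 2 < H b}
  have hU : MeasurableSet U := measurableSet_lt measurable_const hHm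
  set q := ν.real B
  have hq : 0 ≤ q := measureReal_nonneg
  set A : ℕ → Set (ℕ → β) := fun i => {s | s i ∈ B ∧ s i ∉ U ∧
    (∀ j ∈ (range M).erase i, s j ∉ B) ∧ ∑ j ∈ (range M).erase i, H (s j) ≤ top / 2}
  have hA : ∀ i, MeasurableSet (A i) := fun i => by
    simp only [A, Set.ofPred_and, Set.ofPred_forall]
    refine (measurable_pi_apply i hB).inter ((measurable_pi_apply i hU.compl).inter
      (MeasurableSet.inter ?_ (measurableSet_le (f := fun s : ℕ → β => ∑ j ∈ (range M).erase i, H (s j))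
        (by fun_prop) measurable_const)))
    exact MeasurableSet.iInter fun j => MeasurableSet.iInter fun _ =>
      (measurable_pi_apply j hB.compl : MeasurableSet ((fun s : ℕ → β => s j) ⁻¹' Bᶜ))
  have hnn : ∀ᵐ s ∂(Measure.infinitePi (fun _ : ℕ => ν)), ∀ i, 0 < H (s i) :=
    ae_all_iff.2 fun i => (map_coord ν i).quasiMeasurePreserving.ae hH0
  have hone : ∀ i ∈ range M, 5 / 8 * q - ν.real U ≤ ((Measure.infinitePi (fun _ : ℕ => ν))).real (A i) := by
    intro i hi
    let e := B.indicator (fun _ : β => (1:ℝ))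
    have he : Integrable e ν := (integrable_const (1:ℝ)).indicator hB
    let lo : (ℕ → β) → ℝ := fun s => e (s i) - U.indicator (fun _ => (1:ℝ)) (s i)
      - ∑ j ∈ (range M).erase i, e (s i) * e (s j)
      - ∑ j ∈ (range M).erase i, e (s i) * (2 / top * H (s j))
    have hu : Integrable (U.indicator fun _ : β => (1:ℝ)) ν := (integrable_const (1:ℝ)).indicator hU
    have hH2 : Integrable (fun b => 2 / top * H b) ν := hH.const_mul _
    have i1 := integrable_coord ν he i
    have i2 := integrable_coord ν hu i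
    have i3 : ∀ j ∈ (range M).erase i,
        Integrable (fun s : ℕ → β => e (s i) * e (s j)) (Measure.infinitePi (fun _ : ℕ => ν)) :=
      fun j hj => (integral_pair ν he he (mem_erase.1 hj).1.symm).1
    have i4 : ∀ j ∈ (range M).erase i,
        Integrable (fun s : ℕ → β => e (s i) * (2 / top * H (s j))) (Measure.infinitePi (fun _ : ℕ => ν)) :=
      fun j hj => (integral_pair ν he hH2 (mem_erase.1 hj).1.symm).1
    have hle : ∀ᵐ s ∂(Measure.infinitePi (fun _ : ℕ => ν)), lo s ≤ (A i).indicator (fun _ => (1:ℝ)) s := by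
      filter_upwards [hnn] with s hs
      have hsum0 : 0 ≤ ∑ j ∈ (range M).erase i, H (s j) := sum_nonneg fun j _ => (hs j).le
      have he0 : ∀ b, 0 ≤ e b := fun b => Set.indicator_nonneg (fun _ _ => zero_le_one) b
      have he20 : 0 ≤ ∑ j ∈ (range M).erase i, e (s i) * e (s j) :=
        sum_nonneg fun j _ => mul_nonneg (he0 _) (he0 _)
      have hu0 : 0 ≤ U.indicator (fun _ => (1:ℝ)) (s i) :=
        Set.indicator_nonneg (fun _ _ => zero_le_one) _
      have hA0 : 0 ≤ (A i).indicator (fun _ => (1:ℝ)) s :=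
        Set.indicator_nonneg (fun _ _ => zero_le_one) _
      simp only [lo, ← mul_sum]
      by_cases h1 : s i ∈ B
      · have e1 : e (s i) = 1 := by simp [e, h1]
        rw [e1] at he20 ⊢
        simp only [one_mul]
        by_cases h2 : s i ∈ U
        · simp only [Set.indicator_of_mem h2]
          have : 0 ≤ 2 / top * ∑ j ∈ (range M).erase i, H (s j) := by positivity
          simp only [one_mul] at he20
          linarith
        simp only [one_mul] at he20
        by_cases h3 : ∀ j ∈ (range M).erase i, s j ∉ B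
        · by_cases h4 : ∑ j ∈ (range M).erase i, H (s j) ≤ top / 2
          · have : s ∈ A i := ⟨h1, h2, h3, h4⟩
            rw [Set.indicator_of_mem this]
            have : 0 ≤ 2 / top * ∑ j ∈ (range M).erase i, H (s j) := by positivity
            linarith
          · have : 1 ≤ 2 / top * ∑ j ∈ (range M).erase i, H (s j) := by
              rw [div_mul_eq_mul_div, le_div_iff₀ htop]; linarith [not_le.1 h4]
            linarith
        · push Not at h3
          obtain ⟨j, hj, hjB⟩ := h3
          have : 1 ≤ ∑ k ∈ (range M).erase i, e (s k) := by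
            refine le_trans (le_of_eq ?_) (single_le_sum (fun k _ => he0 (s k)) hj)
            simp [e, hjB]
          have : 0 ≤ 2 / top * ∑ j ∈ (range M).erase i, H (s j) := by positivity
          linarith
      · have e1 : e (s i) = 0 := by simp [e, h1]
        rw [e1]
        simp only [zero_mul, sub_zero]
        linarith
    have hint := integral_mono_ae (((i1.sub i2).sub (integrable_finsetSum _ i3)).sub
      (integrable_finsetSum _ i4)) ((integrable_const (1:ℝ)).indicator (hA i)) hle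
    rw [integral_indicator_const _ (hA i), smul_eq_mul, mul_one] at hint
    refine le_trans ?_ hint
    rw [integral_sub' ((i1.sub i2).sub (integrable_finsetSum _ i3)) (integrable_finsetSum _ i4),
      integral_sub' (i1.sub i2) (integrable_finsetSum _ i3), integral_sub' i1 i2,
      integral_finsetSum _ i3, integral_finsetSum _ i4, integral_coord ν
        (measurable_const.indicator hB), integral_coord ν (measurable_const.indicator hU)]
    rw [sum_congr rfl fun j hj => (integral_pair ν he he (mem_erase.1 hj).1.symm).2,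
      sum_congr rfl fun j hj => (integral_pair ν he hH2 (mem_erase.1 hj).1.symm).2]
    have heq : ∫ b, e b ∂ν = q := by simp [e, q, integral_indicator_const _ hB]
    have hueq : ∫ b, U.indicator (fun _ => (1:ℝ)) b ∂ν = ν.real U := by
      simp [integral_indicator_const _ hU]
    simp only [heq, hueq, sum_const, nsmul_eq_mul, integral_const_mul]
    have hcard : (((range M).erase i).card : ℝ) ≤ M := by
      exact_mod_cast (card_erase_le).trans (card_range M).le
    have hm0 : 0 ≤ ∫ b, H b ∂ν := integral_nonneg_of_ae (hH0.mono fun b hb => hb.le)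
    have h5 : (((range M).erase i).card : ℝ) * (q * q) ≤ q / 8 := by
      calc _ ≤ (M:ℝ) * (q * q) := by gcongr
        _ = ((M:ℝ) * q) * q := by ring
        _ ≤ 1 / 8 * q := by gcongr
        _ = _ := by ring
    have h6 : (((range M).erase i).card : ℝ) * (q * (2 / top * ∫ b, H b ∂ν)) ≤ q / 4 := by
      calc _ ≤ (M:ℝ) * (q * (2 / top * ∫ b, H b ∂ν)) := by gcongr
        _ = q * ((2 * M * ∫ b, H b ∂ν) / top) := by ring
        _ ≤ q * (1 / 4) := by
          refine mul_le_mul_of_nonneg_left ?_ hq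
          rw [div_le_iff₀ htop]; linarith
        _ = _ := by ring
    linarith
  have hdisj : Set.PairwiseDisjoint (range M : Set ℕ) A := by
    intro i hi j hj hij
    refine Set.disjoint_left.2 fun s hs ht => hs.2.2.1 j ?_ ht.1
    exact mem_erase.2 ⟨hij.symm, hj⟩
  calc (M : ℝ) * (5 / 8 * q - ν.real U) = ∑ _i ∈ range M, (5 / 8 * q - ν.real U) := by
        rw [sum_const, card_range, nsmul_eq_mul]
    _ ≤ ∑ i ∈ range M, ((Measure.infinitePi (fun _ : ℕ => ν))).real (A i) := sum_le_sum hone
    _ = ((Measure.infinitePi (fun _ : ℕ => ν))).real (⋃ i ∈ range M, A i) :=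
        (measureReal_biUnion_finset hdisj fun i _ => hA i).symm
    _ ≤ _ := by
      refine ENNReal.toReal_mono (measure_ne_top _ _) (measure_mono_ae ?_)
      filter_upwards [hnn] with s hs hsU
      obtain ⟨i, hi, hs1, hs2, -, hs4⟩ := Set.mem_iUnion₂.1 hsU
      refine ⟨i, mem_range.1 hi, hs1, ?_⟩
      calc ∑ j ∈ range (i + 1), H (s j) ≤ ∑ j ∈ range M, H (s j) :=
            sum_le_sum_of_subset_of_nonneg
              (range_mono (Nat.succ_le_of_lt (mem_range.1 hi))) fun j _ _ => (hs j).le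
        _ = H (s i) + ∑ j ∈ (range M).erase i, H (s j) := (add_sum_erase _ _ hi).symm
        _ ≤ top := by
          have h' : H (s i) ≤ top / 2 := not_lt.1 hs2
          linarith

/-- Chebyshev for a sum of iid bounded variables. -/
private lemma chebyshev {f : β → ℝ} (hfm : Measurable f) {C : ℝ} (hf : ∀ b, |f b| ≤ C) (N : ℕ)
    {t : ℝ} (ht : 0 < t) :
    ((Measure.infinitePi (fun _ : ℕ => ν))).real {s | t ≤ |∑ i ∈ range N, f (s i) - N * ∫ b, f b ∂ν|} ≤
      N * (∫ b, f b ^ 2 ∂ν) / t ^ 2 := by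
  have hL : MemLp f 2 ν := MemLp.of_bound hfm.aestronglyMeasurable C (ae_of_all _ hf)
  have hL' : ∀ i ∈ range N, MemLp (fun s : ℕ → β => f (s i)) 2 (Measure.infinitePi (fun _ : ℕ => ν)) :=
    fun i _ => hL.comp_measurePreserving (map_coord ν i)
  have hind : iIndepFun (fun i (s : ℕ → β) => f (s i)) (Measure.infinitePi (fun _ : ℕ => ν)) :=
    iIndepFun_infinitePi (X := fun _ => f) fun _ => hfm
  have hvar : variance (∑ i ∈ range N, fun s : ℕ → β => f (s i)) (Measure.infinitePi (fun _ : ℕ => ν)) ≤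
      N * ∫ b, f b ^ 2 ∂ν := by
    rw [IndepFun.variance_sum hL' fun i _ j _ hij => hind.indepFun hij]
    calc ∑ i ∈ range N, variance (fun s : ℕ → β => f (s i)) (Measure.infinitePi (fun _ : ℕ => ν))
        ≤ ∑ i ∈ range N, ∫ b, f b ^ 2 ∂ν := sum_le_sum fun i hi => by
          refine le_trans (variance_le_expectation_sq (hL' i hi).aestronglyMeasurable) ?_
          exact (integral_coord ν (hfm.pow_const 2) i).le
      _ = _ := by simp
  have hmean : ∫ s, (∑ i ∈ range N, fun s : ℕ → β => f (s i)) s ∂(Measure.infinitePi (fun _ : ℕ => ν)) =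
      N * ∫ b, f b ∂ν := by
    simp only [Finset.sum_apply]
    rw [integral_finsetSum _ fun i hi => (hL' i hi).integrable one_le_two]
    simp [integral_coord ν hfm]
  have := ENNReal.toReal_le_of_le_ofReal (div_nonneg (variance_nonneg _ _) (sq_nonneg t))
    (meas_ge_le_variance_div_sq (memLp_finsetSum' _ hL') ht)
  rw [hmean] at this
  simp only [Finset.sum_apply] at this
  exact this.trans (by gcongr)

end Core

private lemma dyadic_cover {L : ℝ} (hL : 0 ≤ L) (d : ℝ) (i0 : ℕ) : ∀ B : ℕ,
    min d (L * 2 ^ B) ≤ min d (L * 2 ^ i0) +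
      ∑ i ∈ Ico i0 B, L * 2 ^ i * (Set.Ioi (L * 2 ^ i)).indicator (fun _ => (1:ℝ)) d := by
  intro B
  induction B with
  | zero =>
    simp only [Ico_eq_empty_of_le (Nat.zero_le i0), sum_empty, add_zero]
    exact min_le_min le_rfl (mul_le_mul_of_nonneg_left
      (pow_le_pow_right₀ one_le_two (Nat.zero_le _)) hL)
  | succ B ih =>
    rcases Nat.lt_or_ge B i0 with h | h
    · simp only [Ico_eq_empty_of_le (show B + 1 ≤ i0 from h), sum_empty, add_zero]
      exact min_le_min le_rfl (mul_le_mul_of_nonneg_left (pow_le_pow_right₀ one_le_two h) hL)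
    · rw [sum_Ico_succ_top h]
      by_cases hd : L * 2 ^ B < d
      · rw [Set.indicator_of_mem (Set.mem_Ioi.2 hd)]
        have h1 := min_le_right d (L * 2 ^ (B + 1))
        have h2 : min d (L * 2 ^ B) = L * 2 ^ B := min_eq_right hd.le
        rw [pow_succ] at h1 ⊢
        linarith
      · rw [Set.indicator_of_notMem (show d ∉ Set.Ioi (L * 2 ^ B) from hd)]
        have h1 := min_le_left d (L * 2 ^ (B + 1))
        have h2 : min d (L * 2 ^ B) = d := min_eq_left (not_lt.1 hd)
        linarith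

private lemma dyadic_indicator {L d R : ℝ} (hL : 0 ≤ L) (hd : 0 ≤ d) (hR : 0 ≤ R) : ∀ B : ℕ,
    (∀ i < B, L * 2 ^ i ≤ R) →
    ∑ i ∈ range B, L * 2 ^ i * (Set.Ioi (L * 2 ^ i)).indicator (fun _ => (1:ℝ)) d ≤
      2 * min d R := by
  intro B
  induction B with
  | zero => intro _; simpa using mul_nonneg zero_le_two (le_min hd hR)
  | succ B ih =>
    intro h
    have hprev := ih fun i hi => h i (by omega)
    rw [sum_range_succ]
    by_cases hd' : L * 2 ^ B < d
    · rw [Set.indicator_of_mem (Set.mem_Ioi.2 hd'), mul_one]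
      have hle : ∑ i ∈ range B, L * 2 ^ i *
          (Set.Ioi (L * 2 ^ i)).indicator (fun _ => (1:ℝ)) d ≤ L * 2 ^ B := by
        calc _ ≤ ∑ i ∈ range B, L * 2 ^ i := sum_le_sum fun i _ => by
              have : (Set.Ioi (L * 2 ^ i)).indicator (fun _ => (1:ℝ)) d ≤ 1 :=
                Set.indicator_le' (fun _ _ => le_rfl) (fun _ _ => zero_le_one) d
              nlinarith [mul_nonneg hL (pow_nonneg (zero_le_two (α := ℝ)) i)]
          _ = L * ((2:ℝ) ^ B - 1) := by rw [← mul_sum, geom_sum_eq (by norm_num)]; norm_num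
          _ ≤ _ := by nlinarith
      have : L * 2 ^ B ≤ min d R := le_min hd'.le (h B (by omega))
      linarith
    · rw [Set.indicator_of_notMem (show d ∉ Set.Ioi (L * 2 ^ B) from hd'), mul_zero, add_zero]
      exact hprev

private lemma dyadic_square {L d R : ℝ} (hL : 0 ≤ L) (hd : 0 ≤ d) (hR : 0 ≤ R) (B : ℕ)
    (hB : ∀ i < B, L * 2 ^ i ≤ R) :
    ∑ i ∈ range B, min d (L * 2 ^ i) ^ 2 / 2 ^ i ≤ 8 * L * min d R := by
  have key : ∀ k : ℕ, ∑ i ∈ range k, min d (L * 2 ^ i) ^ 2 / 2 ^ i ≤
      4 * L * min d (L * 2 ^ k) - 2 * (min d (L * 2 ^ k) ^ 2 / 2 ^ k) := by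
    intro k
    induction k with
    | zero =>
      simp only [range_zero, sum_empty, pow_zero, mul_one, div_one]
      nlinarith [min_le_right d L, le_min hd hL]
    | succ k ih =>
      rw [sum_range_succ]
      have hp : (0:ℝ) < 2 ^ k := by positivity
      set a := min d (L * 2 ^ k)
      set a' := min d (L * 2 ^ (k + 1)) with ha'
      have h1 : a ≤ L * 2 ^ k := min_le_right _ _
      have h2 : a' ≤ 2 * (L * 2 ^ k) := (min_le_right _ _).trans (le_of_eq (by ring))
      have h3 : a ≤ a' := min_le_min le_rfl (mul_le_mul_of_nonneg_left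
        (pow_le_pow_right₀ one_le_two (Nat.le_succ k)) hL)
      have h4 : 0 ≤ (a' - a) * (4 * L - (a' + a) / 2 ^ k) := by
        refine mul_nonneg (by linarith) ?_
        rw [sub_nonneg, div_le_iff₀ hp]
        nlinarith
      have h5 : (a' - a) * (4 * L - (a' + a) / 2 ^ k) =
          4 * L * a' - 2 * (a' ^ 2 / 2 ^ (k + 1)) - (4 * L * a - 2 * (a ^ 2 / 2 ^ k))
            - a ^ 2 / 2 ^ k := by
        rw [pow_succ]; field_simp; ring
      linarith
  cases B with
  | zero => simp only [range_zero, sum_empty]; exact mul_nonneg (by positivity) (le_min hd hR)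
  | succ B =>
    refine (key _).trans ?_
    have h1 : min d (L * 2 ^ (B + 1)) ≤ 2 * min d R := by
      rw [mul_min_of_nonneg _ _ zero_le_two]
      refine le_min ((min_le_left _ _).trans (by linarith)) ((min_le_right _ _).trans ?_)
      have := hB B (by omega)
      rw [pow_succ]; linarith
    have : 0 ≤ 2 * (min d (L * 2 ^ (B + 1)) ^ 2 / 2 ^ (B + 1)) := by positivity
    nlinarith [mul_le_mul_of_nonneg_left h1 hL]

/-- A nonnegative variable with bounded truncated means is integrable. -/
private lemma integrable_of_bdd {ν : Measure β} [IsProbabilityMeasure ν] {D : β → ℝ}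
    (hDm : Measurable D) (hD0 : ∀ b, 0 ≤ D b) {C : ℝ}
    (h : ∀ R : ℕ, ∫ b, min (D b) R ∂ν ≤ C) : Integrable D ν := by
  refine ⟨hDm.aestronglyMeasurable, ?_⟩
  rw [hasFiniteIntegral_iff_ofReal (ae_of_all _ hD0)]
  have heq : ∀ b, ENNReal.ofReal (D b) = ⨆ R : ℕ, ENNReal.ofReal (min (D b) R) := fun b => by
    refine le_antisymm ?_ (iSup_le fun R => ENNReal.ofReal_le_ofReal (min_le_left _ _))
    obtain ⟨R, hR⟩ := exists_nat_ge (D b)
    exact le_iSup_of_le R (by rw [min_eq_left hR])
  simp only [heq]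
  rw [lintegral_iSup (fun R => (hDm.min measurable_const).ennreal_ofReal)
    (fun R S hRS b => ENNReal.ofReal_le_ofReal (min_le_min le_rfl (Nat.cast_le.2 hRS)))]
  refine lt_of_le_of_lt (iSup_le fun R => ?_) (ENNReal.ofReal_lt_top (r := C))
  rw [← ofReal_integral_eq_lintegral_ofReal
    (Integrable.of_bound (hDm.min measurable_const).aestronglyMeasurable (R : ℝ)
      (ae_of_all _ fun b => by
        rw [Real.norm_eq_abs, abs_of_nonneg (le_min (hD0 b) (Nat.cast_nonneg R))]
        exact min_le_right _ _))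
    (ae_of_all _ fun b => le_min (hD0 b) (Nat.cast_nonneg R))]
  exact ENNReal.ofReal_le_ofReal (h R)

private lemma tendsto_tail {H : β → ℝ} {ν : Measure β} [IsProbabilityMeasure ν]
    (hHm : Measurable H) (hH : Integrable H ν) {m : ℝ} (hm : 0 < m) :
    Tendsto (fun i : ℕ => ∫ b, {b | m * 2 ^ i < H b}.indicator H b ∂ν) atTop (nhds 0) := by
  have h := tendsto_integral_of_dominated_convergence (μ := ν)
    (F := fun i : ℕ => {b | m * 2 ^ i < H b}.indicator H) (f := fun _ => (0:ℝ))
    (fun b => |H b|)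
    (fun i => (hHm.indicator (measurableSet_lt measurable_const hHm)).aestronglyMeasurable)
    hH.abs (fun i => ae_of_all _ fun b => norm_indicator_le_norm_self H b)
    (ae_of_all _ fun b => ?_)
  · simpa using h
  · obtain ⟨i, hi⟩ := pow_unbounded_of_one_lt (H b / m) one_lt_two
    refine tendsto_const_nhds.congr' ?_
    filter_upwards [eventually_ge_atTop i] with k hk
    refine (Set.indicator_of_notMem (show b ∉ {b | m * 2 ^ k < H b} from ?_) H).symm
    simp only [Set.mem_ofPred_eq, not_lt]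
    rw [div_lt_iff₀ hm] at hi
    nlinarith [pow_le_pow_right₀ (one_le_two (α := ℝ)) hk]

section Scale

variable (ν : Measure β) [IsProbabilityMeasure ν]


private lemma cone_lower {H D : β → ℝ} (hDm : Measurable D) (hD0 : ∀ b, 0 ≤ D b) {c0 : ℝ}
    (hcone : ((Measure.infinitePi (fun _ : ℕ => ν))).real {s | ∀ j : ℕ, c0 * j ≤ ∑ k ∈ range j, H (s k)} ≥ 7 / 8)
    {R T : ℝ} (hR0 : 0 ≤ R) (hT : 0 < T) (hTdef : ∫ b, min (D b) R ∂ν = T)
    {l w : ℝ} {Cn N : ℕ} (hw : 0 < w) (hN : (N : ℝ) = Cn * w) (hl8 : 8 * (Cn : ℝ) + 8 ≤ l)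
    (hLw : l * T * w ≤ R) :
    5 / 8 ≤ ((Measure.infinitePi (fun _ : ℕ => ν))).real (coneSet H D (8 * T) c0 N) := by
  have hmin : Integrable (fun b => min (D b) R) ν :=
    Integrable.of_bound (hDm.min measurable_const).aestronglyMeasurable R (ae_of_all _ fun b => by
      rw [Real.norm_eq_abs, abs_of_nonneg (le_min (hD0 b) hR0)]; exact min_le_right _ _)
  let S1 := {s : ℕ → β | ∀ j : ℕ, c0 * j ≤ ∑ k ∈ range j, H (s k)}
  let S2 := {s : ℕ → β | 0 < runMax (fun b => min (D b) R - 8 * T) N s}
  let S3 := ⋃ k ∈ range N, {s : ℕ → β | s k ∈ {b | R < D b}}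
  have hsub : S1 ⊆ coneSet H D (8 * T) c0 N ∪ (S2 ∪ S3) := by
    intro s hs
    by_cases h3 : s ∈ S3
    · exact Or.inr (Or.inr h3)
    by_cases h2 : s ∈ S2
    · exact Or.inr (Or.inl h2)
    refine Or.inl ⟨hs, fun j hj => ?_⟩
    have h4 := (sum_le_runMax (fun b => min (D b) R - 8 * T) N j hj s).trans
      (show runMax (fun b => min (D b) R - 8 * T) N s ≤ 0 from not_lt.1 h2)
    rw [sum_sub_distrib, sum_const, card_range, nsmul_eq_mul] at h4
    have h5 : ∑ k ∈ range j, D (s k) = ∑ k ∈ range j, min (D (s k)) R :=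
      sum_congr rfl fun k hk => (min_eq_left (not_lt.1 fun h => h3
        (Set.mem_iUnion₂.2 ⟨k, mem_range.2 ((mem_range.1 hk).trans_le hj), h⟩))).symm
    linarith
  have h2 : ((Measure.infinitePi (fun _ : ℕ => ν))).real S2 ≤ 1 / 8 := by
    refine (runMax_prob_upper ν (hDm.min measurable_const) hR0
      (fun b => le_min (hD0 b) hR0) (fun b => min_le_right _ _) (by positivity) N).trans ?_
    rw [div_le_iff₀ (by positivity), hTdef]
    linarith
  have h3 : ((Measure.infinitePi (fun _ : ℕ => ν))).real S3 ≤ 1 / 8 := by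
    have hRq : R * ν.real {b | R < D b} ≤ T := by
      have hs : MeasurableSet {b | R < D b} := measurableSet_lt measurable_const hDm
      calc R * ν.real {b | R < D b}
          = ∫ b, {b | R < D b}.indicator (fun _ => R) b ∂ν := by
            rw [integral_indicator_const _ hs, smul_eq_mul, mul_comm]
        _ ≤ T := hTdef ▸ integral_mono ((integrable_const _).indicator hs) hmin fun b => by
            by_cases hd : b ∈ {b | R < D b}
            · rw [Set.indicator_of_mem hd]; exact le_min (le_of_lt hd) le_rfl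
            · rw [Set.indicator_of_notMem hd]; exact le_min (hD0 b) hR0
    calc ((Measure.infinitePi (fun _ : ℕ => ν))).real S3 ≤ ∑ k ∈ range N, ((Measure.infinitePi (fun _ : ℕ => ν))).real {s : ℕ → β | s k ∈ {b | R < D b}} :=
          measureReal_biUnion_finset_le _ _
      _ = (N:ℝ) * ν.real {b | R < D b} := by
          rw [sum_congr rfl fun k _ =>
            real_coord ν (measurableSet_lt measurable_const hDm) k]
          simp
      _ ≤ 1 / 8 := by
          have hq0 : 0 ≤ ν.real {b | R < D b} := measureReal_nonneg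
          have h4 : l * T * w * ν.real {b | R < D b} ≤ T :=
            le_trans (mul_le_mul_of_nonneg_right hLw hq0) hRq
          have h5 : l * (w * ν.real {b | R < D b}) ≤ 1 := by
            refine le_of_mul_le_mul_left ?_ hT
            linarith
          have h6 : (8 * (Cn:ℝ)) * (w * ν.real {b | R < D b}) ≤
              l * (w * ν.real {b | R < D b}) :=
            mul_le_mul_of_nonneg_right (by linarith) (by positivity)
          rw [hN]
          linarith
  have h7 : ((Measure.infinitePi (fun _ : ℕ => ν))).real S1 ≤ ((Measure.infinitePi (fun _ : ℕ => ν))).real (coneSet H D (8 * T) c0 N) + (((Measure.infinitePi (fun _ : ℕ => ν))).real S2 + ((Measure.infinitePi (fun _ : ℕ => ν))).real S3) :=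
    (measureReal_mono hsub).trans ((measureReal_union_le _ _).trans
      (by gcongr; exact measureReal_union_le _ _))
  linarith [show 7 / 8 ≤ ((Measure.infinitePi (fun _ : ℕ => ν))).real S1 from hcone]

private lemma height_dev {H : β → ℝ}
    {G : β → ℝ} (hGm : Measurable G) (hG1 : ∀ b, |G b| ≤ 1) (hGH : ∀ᵐ b ∂ν, G b ≤ H b)
    {m1 m w : ℝ} (hm1 : 0 < m1) (hm1def : ∫ b, G b ∂ν = m1) (hw : 0 < w) {Cn N : ℕ}
    (hCn3 : 1 < (Cn : ℝ)) (hCn2 : 16 * m < Cn * m1) (hN : (N : ℝ) = Cn * w) :
    ((Measure.infinitePi (fun _ : ℕ => ν))).real {s | ∑ k ∈ range N, H (s k) ≤ 8 * m * w} ≤ 4 / (Cn * m1 ^ 2) / w := by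
  have hnn : ∀ᵐ s ∂(Measure.infinitePi (fun _ : ℕ => ν)), ∀ i, G (s i) ≤ H (s i) :=
    ae_all_iff.2 fun i => (map_coord ν i).quasiMeasurePreserving.ae hGH
  have hNw : 0 < (N:ℝ) := by rw [hN]; positivity
  have h1 : ((Measure.infinitePi (fun _ : ℕ => ν))).real {s | ∑ k ∈ range N, H (s k) ≤ 8 * m * w} ≤
      ((Measure.infinitePi (fun _ : ℕ => ν))).real {s | (N:ℝ) * m1 / 2 ≤ |∑ k ∈ range N, G (s k) - N * m1|} := by
    refine ENNReal.toReal_mono (measure_ne_top _ _) (measure_mono_ae ?_)
    filter_upwards [hnn] with s hs hsle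
    change ∑ k ∈ range N, H (s k) ≤ 8 * m * w at hsle
    show (N:ℝ) * m1 / 2 ≤ |_|
    have h2 : ∑ k ∈ range N, G (s k) ≤ ∑ k ∈ range N, H (s k) :=
      sum_le_sum fun k _ => hs k
    have h3 : 16 * m * w ≤ (Cn * w) * m1 := by
      calc 16 * m * w ≤ (Cn * m1) * w := by gcongr
        _ = _ := by ring
    rw [← hN] at h3
    refine le_trans ?_ (neg_le_abs _)
    linarith
  have hch := chebyshev ν hGm hG1 N (show 0 < (N:ℝ) * m1 / 2 by positivity)
  rw [hm1def] at hch
  refine h1.trans (hch.trans ?_)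
  have h4 : ∫ b, G b ^ 2 ∂ν ≤ 1 := by
    calc ∫ b, G b ^ 2 ∂ν ≤ ∫ _, (1:ℝ) ∂ν :=
          integral_mono_of_nonneg (ae_of_all _ fun b => sq_nonneg _) (integrable_const _)
            (ae_of_all _ fun b => (sq_le_one_iff_abs_le_one _).2 (hG1 b))
      _ = 1 := by simp
  calc (N:ℝ) * (∫ b, G b ^ 2 ∂ν) / ((N:ℝ) * m1 / 2) ^ 2
      ≤ (N:ℝ) * 1 / ((N:ℝ) * m1 / 2) ^ 2 := by gcongr
    _ = _ := by rw [hN]; field_simp; ring

private lemma disp_dev {D : β → ℝ} (hDm : Measurable D) (hD0 : ∀ b, 0 ≤ D b) {R T z w : ℝ}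
    (hR0 : 0 ≤ R) (hT : 0 < T) (hTdef : ∫ b, min (D b) R ∂ν = T) (hz : 0 ≤ z) (hzR : z ≤ R)
    {Cn N : ℕ} (hCn : 0 < (Cn : ℝ)) (hw : 0 < w) (hN : (N : ℝ) = Cn * w) :
    ((Measure.infinitePi (fun _ : ℕ => ν))).real {s | 2 * (N:ℝ) * T < ∑ k ∈ range N, D (s k)} ≤
      Cn * (w * ν.real {b | z < D b}) + (∫ b, min (D b) z ^ 2 ∂ν) / w / (Cn * T ^ 2) := by
  have hmin : ∀ S : ℝ, 0 ≤ S → Integrable (fun b => min (D b) S) ν := fun S hS =>
    Integrable.of_bound (hDm.min measurable_const).aestronglyMeasurable S (ae_of_all _ fun b => by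
      rw [Real.norm_eq_abs, abs_of_nonneg (le_min (hD0 b) hS)]; exact min_le_right _ _)
  let S1 := ⋃ k ∈ range N, {s : ℕ → β | s k ∈ {b | z < D b}}
  let f : β → ℝ := fun b => min (D b) z
  let S2 := {s : ℕ → β | (N:ℝ) * T ≤ |∑ k ∈ range N, f (s k) - N * ∫ b, f b ∂ν|}
  have hsub : {s : ℕ → β | 2 * (N:ℝ) * T < ∑ k ∈ range N, D (s k)} ⊆ S1 ∪ S2 := by
    intro s hs
    by_cases h1 : s ∈ S1
    · exact Or.inl h1
    refine Or.inr ?_
    have h2 : ∑ k ∈ range N, D (s k) = ∑ k ∈ range N, f (s k) :=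
      sum_congr rfl fun k hk => (min_eq_left (not_lt.1 fun h => h1
        (Set.mem_iUnion₂.2 ⟨k, hk, h⟩))).symm
    have h3 : (N:ℝ) * ∫ b, f b ∂ν ≤ N * T := mul_le_mul_of_nonneg_left
      (hTdef ▸ integral_mono (hmin _ hz) (hmin _ hR0) fun b => min_le_min le_rfl hzR) (by positivity)
    show (N:ℝ) * T ≤ |_|
    refine le_trans ?_ (le_abs_self _)
    have hs' : 2 * (N:ℝ) * T < ∑ k ∈ range N, D (s k) := hs
    linarith
  refine (measureReal_mono hsub).trans ((measureReal_union_le _ _).trans (add_le_add ?_ ?_))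
  · calc ((Measure.infinitePi (fun _ : ℕ => ν))).real S1 ≤ ∑ k ∈ range N, ((Measure.infinitePi (fun _ : ℕ => ν))).real {s : ℕ → β | s k ∈ {b | z < D b}} :=
          measureReal_biUnion_finset_le _ _
      _ = Cn * (w * ν.real {b | z < D b}) := by
          rw [sum_congr rfl fun k _ =>
            real_coord ν (measurableSet_lt measurable_const hDm) k]
          simp [hN, mul_assoc]
  · refine (chebyshev ν (hDm.min measurable_const) (C := z) (fun b => ?_) N
      (by rw [hN]; positivity)).trans (le_of_eq ?_)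
    · rw [abs_of_nonneg (le_min (hD0 b) hz)]; exact min_le_right _ _
    · rw [hN]; field_simp

private lemma tail_sum {H : β → ℝ} (hHm : Measurable H) (hH0 : ∀ᵐ b ∂ν, 0 < H b)
    (hH : Integrable H ν) {m : ℝ} (hm : 0 < m) (i0 B : ℕ) :
    ∑ i ∈ Ico i0 B, 2 ^ i * ν.real {b | 4 * m * 2 ^ i < H b} ≤
      (∫ b, {b | 4 * m * 2 ^ i0 < H b}.indicator H b ∂ν) / (2 * m) := by
  let hh : ℕ → ℝ := fun i => 2 ^ i * ν.real {b | 4 * m * 2 ^ i < H b}
  show ∑ i ∈ Ico i0 B, hh i ≤ _
  have hs : ∀ i, MeasurableSet {b | 4 * m * 2 ^ i < H b} :=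
    fun i => measurableSet_lt measurable_const hHm
  let U : ℕ → β → ℝ := fun i b => {b | 4 * m * 2 ^ i < H b}.indicator (fun _ => (2:ℝ) ^ i) b
  have hUi : ∀ i, Integrable (U i) ν ∧ ∫ b, U i b ∂ν = hh i := fun i =>
    ⟨(integrable_const _).indicator (hs i), by
      simp only [U, hh]
      rw [integral_indicator_const _ (hs i), smul_eq_mul, mul_comm]⟩
  calc ∑ i ∈ Ico i0 B, hh i = ∫ b, ∑ i ∈ Ico i0 B, U i b ∂ν := by
        rw [integral_finsetSum _ fun i _ => (hUi i).1]
        exact sum_congr rfl fun i _ => (hUi i).2.symm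
    _ ≤ ∫ b, {b | 4 * m * 2 ^ i0 < H b}.indicator H b / (2 * m) ∂ν := by
        refine integral_mono_ae (integrable_finsetSum _ fun i _ => (hUi i).1)
          ((hH.indicator (hs i0)).div_const _) (hH0.mono fun b hb => ?_)
        dsimp only
        by_cases hd : 4 * m * 2 ^ i0 < H b
        · rw [Set.indicator_of_mem (show b ∈ {b | 4 * m * 2 ^ i0 < H b} from hd)]
          have h1 : ∀ B : ℕ, ∑ i ∈ range B, U i b ≤ H b / (2 * m) := by
            intro B
            induction B with
            | zero => simp; positivity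
            | succ B ih =>
              rw [sum_range_succ]
              by_cases hB' : 4 * m * 2 ^ B < H b
              · simp only [U, Set.indicator_of_mem
                  (show b ∈ {b | 4 * m * 2 ^ B < H b} from hB')]
                calc (∑ i ∈ range B, U i b) + 2 ^ B ≤ (∑ i ∈ range B, (2:ℝ) ^ i) + 2 ^ B := by
                      refine add_le_add_left (sum_le_sum fun i _ => ?_) _
                      exact Set.indicator_le_self' (fun _ _ => by positivity) b
                  _ ≤ 2 * 2 ^ B := by rw [geom_sum_eq (by norm_num)]; norm_num; linarith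
                  _ ≤ _ := by rw [le_div_iff₀ (by positivity)]; linarith
              · simp only [U, Set.indicator_of_notMem
                  (show b ∉ {b | 4 * m * 2 ^ B < H b} from hB'), add_zero]
                exact ih
          refine le_trans (sum_le_sum_of_subset_of_nonneg (fun j hj =>
            mem_range.2 (mem_Ico.1 hj).2) fun i _ _ => ?_) (h1 B)
          exact Set.indicator_nonneg (fun _ _ => by positivity) b
        · rw [Set.indicator_of_notMem (show b ∉ {b | 4 * m * 2 ^ i0 < H b} from hd)]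
          refine (le_of_eq (sum_eq_zero fun i hi => Set.indicator_of_notMem ?_ _)).trans
            (by simp)
          simp only [Set.mem_ofPred_eq, not_lt]
          refine (not_lt.1 hd).trans ?_
          gcongr
          · exact one_le_two
          · exact (mem_Ico.1 hi).1
    _ = _ := integral_div _ _

end Scale

/-- The estimate at one dyadic scale `w = 2 ^ i`. -/
private lemma one_scale {ν : Measure β} [IsProbabilityMeasure ν] {H D : β → ℝ}
    (hHm : Measurable H) (hDm : Measurable D) (hD0 : ∀ b, 0 ≤ D b) (hH0 : ∀ᵐ b ∂ν, 0 < H b)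
    (hH : Integrable H ν) {c δ a J : ℝ} (hc : 0 < c) (hc1 : c ≤ 1)
    (hkey : ∀ (K top lam c0 x y : ℝ) (N M n : ℕ), 0 < lam → 0 < c0 → 0 ≤ top → 0 ≤ x →
      top < c0 * N → lam + J ≤ K * δ → lam ≤ K * c0 →
      x + n * (K * (a + a + top) + lam * N + 2 * J) ≤ y →
      c * (Measure.infinitePi fun _ : ℕ => ν).real (coneSet H D lam c0 N) *
          (Measure.infinitePi fun _ : ℕ => ν).real (badSet H D top (2 * y) M) ≤
        2 * (1 - c * (Measure.infinitePi fun _ : ℕ => ν).real (coneSet H D lam c0 N)) ^ n *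
          ((Measure.infinitePi fun _ : ℕ => ν).real {s | ∑ i ∈ range N, H (s i) ≤ top} +
            (Measure.infinitePi fun _ : ℕ => ν).real
              {s | x - K * top < ∑ i ∈ range N, D (s i)}))
    {G : β → ℝ} (hGm : Measurable G) (hG1 : ∀ b, |G b| ≤ 1) (hGH : ∀ᵐ b ∂ν, G b ≤ H b)
    {c0 m m1 κ l T R : ℝ} {Cn n i : ℕ} (hc0 : 0 < c0)
    (hcone : (Measure.infinitePi fun _ : ℕ => ν).real
      {s | ∀ j : ℕ, c0 * j ≤ ∑ k ∈ range j, H (s k)} ≥ 7 / 8)
    (hmdef : ∫ b, H b ∂ν = m) (hm : 0 < m) (hm1def : ∫ b, G b ∂ν = m1) (hm1 : 0 < m1)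
    (hCn1 : 8 * m < Cn * c0) (hCn2 : 16 * m < Cn * m1) (hCn3 : 1 < (Cn : ℝ))
    (hκ : 0 < κ) (hκδ : 9 ≤ κ * δ) (hκc : 8 ≤ κ * c0) (hl8 : 8 * (Cn : ℝ) + 8 ≤ l)
    (hl : l = 2 * ((8 * m * κ + 2 * Cn) + n * (16 * m * κ + 8 * Cn + 2)))
    (hR0 : 0 ≤ R) (hTdef : ∫ b, min (D b) R ∂ν = T) (hTJ : J < T) (hT1 : 1 < T)
    (hwa : a ≤ 4 * m * 2 ^ i) (hLw : l * T * 2 ^ i ≤ R) :
    2 ^ i * ν.real {b | l * T * 2 ^ i < D b} ≤ 2 * (2 ^ i * ν.real {b | 4 * m * 2 ^ i < H b}) +
      2 * (2 * (1 - c * (5 / 8)) ^ n / (c * (5 / 8))) * (4 / (Cn * m1 ^ 2) / 2 ^ i +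
        Cn * (2 ^ i * ν.real {b | l * T * 2 ^ i < D b}) +
        (∫ b, min (D b) (l * T * 2 ^ i) ^ 2 ∂ν) / 2 ^ i / (Cn * T ^ 2)) := by
  let P := Measure.infinitePi fun _ : ℕ => ν
  have hT : 0 < T := by linarith
  have hlpos : 0 < l := by linarith [(Nat.cast_nonneg Cn : (0:ℝ) ≤ Cn)]
  set cc := c * (5 / 8) with hcc_def
  have hcc : 0 < cc := by positivity
  set r := 1 - cc
  have hr0 : 0 ≤ r := by simp only [r, cc]; linarith
  set ρ := 2 * r ^ n / cc
  have hρ : 0 ≤ ρ := by positivity
  set Cx : ℝ := 8 * m * κ + 2 * Cn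
  set CL : ℝ := 16 * m * κ + 8 * Cn + 2
  set w : ℝ := 2 ^ i
  have hw1 : 1 ≤ w := one_le_pow₀ one_le_two
  have hw : 0 < w := by positivity
  set L := l * T
  have hzs : MeasurableSet {b | L * w < D b} := measurableSet_lt measurable_const hDm
  have hmin : Integrable (fun b => min (D b) R) ν :=
    Integrable.of_bound (hDm.min measurable_const).aestronglyMeasurable R (ae_of_all _ fun b => by
      rw [Real.norm_eq_abs, abs_of_nonneg (le_min (hD0 b) hR0)]; exact min_le_right _ _)
  set top := 8 * m * w with htop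
  set N := Cn * 2 ^ i
  have hN : (N:ℝ) = Cn * w := by simp [N, w]
  set z := L * w
  set q := ν.real {b | z < D b}
  -- first moment at this scale
  have hwq : w * q ≤ 1 / 8 := by
    have h1 : z * q ≤ T := by
      calc z * q = ∫ b, {b | z < D b}.indicator (fun _ => z) b ∂ν := by
            rw [integral_indicator_const _ hzs, smul_eq_mul, mul_comm]
        _ ≤ T := hTdef ▸ integral_mono ((integrable_const _).indicator hzs) hmin fun b => by
            by_cases hd : b ∈ {b | z < D b}
            · rw [Set.indicator_of_mem hd]; exact le_min (le_of_lt hd) hLw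
            · rw [Set.indicator_of_notMem hd]; exact le_min (hD0 b) hR0
    have h2 : l * (w * q) ≤ 1 := by
      refine le_of_mul_le_mul_left ?_ hT
      calc T * (l * (w * q)) = z * q := by simp only [z, L]; ring
        _ ≤ T * 1 := by linarith
    have h3 : 8 * (w * q) ≤ l * (w * q) :=
      mul_le_mul_of_nonneg_right (by linarith [(Nat.cast_nonneg Cn : (0:ℝ) ≤ Cn)])
        (by positivity)
    linarith
  have hbad : w * (5 / 8 * q - ν.real {b | top / 2 < H b}) ≤ P.real (badSet H D top z (2 ^ i)) := by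
    have := bad_lower ν hHm hDm hH0 hH (top := top) (z := z) (2 ^ i) (by positivity)
      (by simpa [w] using hwq) (le_of_eq (by rw [hmdef]; simp [top, w]; ring))
    simpa [w, q] using this
  have hhalf : top / 2 = 4 * m * w := by simp only [top]; ring
  -- cone
  have hcP : 5 / 8 ≤ P.real (coneSet H D (8 * T) c0 N) := by
    exact cone_lower ν hDm hD0 hcone hR0 hT hTdef hw hN hl8 hLw
  -- the two large deviations
  have hP3 : P.real {s | ∑ k ∈ range N, H (s k) ≤ top} ≤ 4 / (Cn * m1 ^ 2) / w := by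
    exact height_dev ν hGm hG1 hGH hm1 hm1def hw hCn3 hCn2 hN
  have hP4 : P.real {s | 2 * (N:ℝ) * T < ∑ k ∈ range N, D (s k)} ≤
      Cn * (w * q) + (∫ b, min (D b) z ^ 2 ∂ν) / w / (Cn * T ^ 2) := by
    exact disp_dev ν hDm hD0 hR0 hT hTdef (by positivity) hLw (by linarith) hw hN
  set y := T * w * (Cx + n * CL) with hydef
  set x := κ * T * top + 2 * (N:ℝ) * T with hxdef
  have hk := hkey (κ * T) top (8 * T) c0 x y N (2 ^ i) n (by positivity) hc0 (by positivity)
    (by positivity)
    (by rw [hN, ← mul_assoc, mul_comm c0]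
        exact mul_lt_mul_of_pos_right hCn1 hw)
    (calc 8 * T + J ≤ 9 * T := by linarith
      _ ≤ κ * δ * T := mul_le_mul_of_nonneg_right hκδ hT.le
      _ = κ * T * δ := by ring)
    (calc 8 * T ≤ κ * c0 * T := mul_le_mul_of_nonneg_right hκc hT.le
      _ = κ * T * c0 := by ring)
    (by
      have h1 : κ * T * (a + a + top) ≤ T * w * (16 * m * κ) := by
        calc κ * T * (a + a + top) ≤ κ * T * (16 * m * w) := by
              gcongr; simp only [top]; linarith
          _ = _ := by ring
      have h2 : J ≤ T * w := hTJ.le.trans (le_mul_of_one_le_right hT.le hw1)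
      have h3 : x = T * w * Cx := by simp only [hxdef, top, Cx, hN]; ring
      have h4 : κ * T * (a + a + top) + 8 * T * N + 2 * J ≤ T * w * CL := by
        simp only [CL, hN]; linarith
      calc x + n * (κ * T * (a + a + top) + 8 * T * N + 2 * J)
          ≤ T * w * Cx + n * (T * w * CL) := by rw [h3]; gcongr
        _ = y := by simp only [hydef]; ring)
  rw [show 2 * y = z by simp only [hydef, z, L, hl, Cx, CL]; ring,
    show x - κ * T * top = 2 * (N:ℝ) * T by simp only [hxdef]; ring] at hk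
  have hbase : (1 - c * P.real (coneSet H D (8 * T) c0 N)) ^ n ≤ r ^ n := by
    refine pow_le_pow_left₀ ?_ ?_ n
    · linarith [mul_le_mul hc1 (measureReal_le_one (μ := P)
        (s := coneSet H D (8 * T) c0 N)) measureReal_nonneg zero_le_one]
    · simp only [r, cc]
      linarith [mul_le_mul_of_nonneg_left hcP hc.le]
  set Q := P.real {s | ∑ k ∈ range N, H (s k) ≤ top} +
    P.real {s | 2 * (N:ℝ) * T < ∑ k ∈ range N, D (s k)}
  have hQ : 0 ≤ Q := add_nonneg measureReal_nonneg measureReal_nonneg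
  have h5 : cc * P.real (badSet H D top z (2 ^ i)) ≤ 2 * r ^ n * Q := by
    refine le_trans ?_ (hk.trans (by gcongr))
    simp only [cc]
    gcongr
  have h6 : P.real (badSet H D top z (2 ^ i)) ≤ ρ * Q := by
    simp only [ρ, div_mul_eq_mul_div]
    rw [le_div_iff₀ hcc]; linarith
  rw [hhalf] at hbad
  have h9 : ρ * Q ≤ ρ * (4 / (Cn * m1 ^ 2) / w + Cn * (w * q) +
      (∫ b, min (D b) z ^ 2 ∂ν) / w / (Cn * T ^ 2)) :=
    mul_le_mul_of_nonneg_left (by linarith) hρ
  have h10 : 0 ≤ w * ν.real {b | 4 * m * w < H b} := by positivity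
  have h11 : 0 ≤ ρ * (4 / (Cn * m1 ^ 2) / w + Cn * (w * q) +
      (∫ b, min (D b) z ^ 2 ∂ν) / w / (Cn * T ^ 2)) :=
    le_trans (mul_nonneg hρ hQ) h9
  linarith

theorem integrable_of_key (ν : Measure β) [IsProbabilityMeasure ν] (H D : β → ℝ)
    (hHm : Measurable H) (hDm : Measurable D) (hD0 : ∀ b, 0 ≤ D b)
    (hH0 : ∀ᵐ b ∂ν, 0 < H b) (hH : Integrable H ν) (c δ a J : ℝ) (hc : 0 < c) (hc1 : c ≤ 1)
    (hδ : 0 < δ) (ha : 0 ≤ a) (hJ : 0 ≤ J)
    (hkey : ∀ (K top lam c0 x y : ℝ) (N M n : ℕ), 0 < lam → 0 < c0 → 0 ≤ top → 0 ≤ x →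
      top < c0 * N → lam + J ≤ K * δ → lam ≤ K * c0 →
      x + n * (K * (a + a + top) + lam * N + 2 * J) ≤ y →
      c * (Measure.infinitePi fun _ : ℕ => ν).real (coneSet H D lam c0 N) *
          (Measure.infinitePi fun _ : ℕ => ν).real (badSet H D top (2 * y) M) ≤
        2 * (1 - c * (Measure.infinitePi fun _ : ℕ => ν).real (coneSet H D lam c0 N)) ^ n *
          ((Measure.infinitePi fun _ : ℕ => ν).real {s | ∑ i ∈ range N, H (s i) ≤ top} +
            (Measure.infinitePi fun _ : ℕ => ν).real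
              {s | x - K * top < ∑ i ∈ range N, D (s i)})) :
    Integrable D ν := by
  classical
  let P := Measure.infinitePi fun _ : ℕ => ν
  have hnn : ∀ᵐ s ∂P, ∀ i, 0 < H (s i) :=
    ae_all_iff.2 fun i => (map_coord ν i).quasiMeasurePreserving.ae hH0
  obtain ⟨c0, hc0, hcone⟩ := exists_cone ν hHm hH0
  set m := ∫ b, H b ∂ν
  let G : β → ℝ := fun b => max 0 (min (H b) 1)
  have hGm : Measurable G := measurable_const.max (hHm.min measurable_const)
  have hG1 : ∀ b, |G b| ≤ 1 := fun b => by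
    rw [abs_of_nonneg (le_max_left _ _)]; exact max_le zero_le_one (min_le_right _ _)
  have hGi : Integrable G ν := Integrable.of_bound hGm.aestronglyMeasurable 1 (ae_of_all _ hG1)
  have hGH : ∀ᵐ b ∂ν, G b ≤ H b := hH0.mono fun b hb => max_le hb.le (min_le_left _ _)
  set m1 := ∫ b, G b ∂ν
  have hm1 : 0 < m1 := by
    show 0 < ∫ b, G b ∂ν
    rw [integral_pos_iff_support_of_nonneg (f := G) (fun b => le_max_left _ _) hGi]
    refine lt_of_lt_of_le (zero_lt_one' ℝ≥0∞) (le_of_eq ?_)
    rw [← measure_univ (μ := ν)]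
    refine measure_congr (ae_eq_univ.2 (measure_mono_null ?_ (ae_iff.1 hH0))).symm
    intro b hb hpos
    exact hb (by simp [G, Function.mem_support, (lt_min hpos one_pos).not_ge])
  have hm : 0 < m := lt_of_lt_of_le hm1 (integral_mono_ae hGi hH hGH)
  obtain ⟨Cn, hCn⟩ := exists_nat_gt (max (max (8 * m / c0) (16 * m / m1)) 1)
  simp only [max_lt_iff] at hCn
  obtain ⟨⟨hCn1, hCn2⟩, hCn3⟩ := hCn
  rw [div_lt_iff₀ hc0] at hCn1
  rw [div_lt_iff₀ hm1] at hCn2
  set κ := max (9 / δ) (8 / c0)
  have hκδ : 9 ≤ κ * δ := (div_le_iff₀ hδ).1 (le_max_left _ _)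
  have hκc : 8 ≤ κ * c0 := (div_le_iff₀ hc0).1 (le_max_right _ _)
  have hκ : 0 < κ := lt_of_lt_of_le (by positivity) (le_max_left _ _)
  set Cx : ℝ := 8 * m * κ + 2 * Cn
  set CL : ℝ := 16 * m * κ + 8 * Cn + 2
  have hCx : 0 < Cx := by positivity
  have hCL : 0 < CL := by positivity
  set cc := c * (5 / 8)
  have hcc : 0 < cc := by positivity
  set r := 1 - cc
  have hr0 : 0 ≤ r := by simp only [r, cc]; linarith
  have hr1 : r < 1 := by simp only [r]; linarith
  set K0 := 8 / (Cn * m1 ^ 2)
  -- choose `n`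
  have hlim : Tendsto (fun n : ℕ => 2 * r ^ n / cc * (2 * (Cx + n * CL)) *
      (K0 + 2 * Cn + 8 * (2 * (Cx + n * CL)))) atTop (nhds 0) := by
    have t0 := tendsto_pow_atTop_nhds_zero_of_lt_one hr0 hr1
    have t1 := tendsto_self_mul_const_pow_of_lt_one hr0 hr1
    have t2 := tendsto_pow_const_mul_const_pow_of_abs_lt_one 2
      (show |r| < 1 by rwa [abs_of_nonneg hr0])
    have := ((t0.const_mul (4 * Cx / cc * (K0 + 2 * Cn + 16 * Cx))).add
      ((t1.const_mul (4 * CL / cc * (K0 + 2 * Cn + 16 * Cx) + 64 * Cx * CL / cc)))).add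
      (t2.const_mul (64 * CL ^ 2 / cc))
    simp only [mul_zero, add_zero] at this
    exact this.congr fun n => by field_simp; ring
  obtain ⟨n, hn, hn1⟩ := ((hlim.eventually_le_const (show (0:ℝ) < 1 / 16 by norm_num)).and
    (eventually_ge_atTop 1)).exists
  set l := 2 * (Cx + n * CL)
  set ρ := 2 * r ^ n / cc
  have hρ : 0 ≤ ρ := by positivity
  have hl : 0 < l := by positivity
  have hl8 : 8 * (Cn : ℝ) + 8 ≤ l := by
    have : (1:ℝ) ≤ n := by exact_mod_cast hn1
    have : CL ≤ n * CL := le_mul_of_one_le_left hCL.le this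
    simp only [l, CL, Cx] at *
    linarith [mul_pos hm hκ]
  -- choose `i0`
  obtain ⟨i0, hi0, hi0a⟩ := ((((tendsto_tail (ν := ν) hHm hH (mul_pos four_pos hm)).const_mul
    (l / m)).eventually_le_const (show l / m * 0 < 1 / 4 by norm_num)).and
    ((tendsto_pow_atTop_atTop_of_one_lt (one_lt_two (α := ℝ))).eventually_ge_atTop
      (a / (4 * m)))).exists
  -- choose `T0`
  have hDCT : Tendsto (fun k : ℕ => ∫ b, min (D b / ((k:ℝ) + 1)) (l * 2 ^ i0) ∂ν) atTop
      (nhds 0) := by
    have h := tendsto_integral_of_dominated_convergence (μ := ν)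
      (F := fun (k : ℕ) b => min (D b / ((k:ℝ) + 1)) (l * 2 ^ i0)) (f := fun _ => (0:ℝ))
      (fun _ => l * 2 ^ i0)
      (fun k => ((hDm.div_const _).min measurable_const).aestronglyMeasurable)
      (integrable_const _)
      (fun k => ae_of_all _ fun b => by
        rw [Real.norm_eq_abs, abs_of_nonneg (le_min (div_nonneg (hD0 b) (by positivity))
          (by positivity))]
        exact min_le_right _ _)
      (ae_of_all _ fun b => ?_)
    · simpa using h
    · have : Tendsto (fun k : ℕ => D b / ((k:ℝ) + 1)) atTop (nhds 0) := by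
        simpa [div_eq_mul_inv] using
          (tendsto_one_div_add_atTop_nhds_zero_nat (𝕜 := ℝ)).const_mul (D b)
      simpa [min_eq_left (show (0:ℝ) ≤ l * 2 ^ i0 by positivity)] using
        this.min (tendsto_const_nhds (x := l * 2 ^ i0))
  obtain ⟨k0, hk0⟩ := (hDCT.eventually_le_const (show (0:ℝ) < 1 / 4 by norm_num)).exists
  refine integrable_of_bdd hDm hD0 (C := max (max J 1) ((k0:ℝ) + 1)) fun R => ?_
  by_contra hcon
  simp only [not_le, max_lt_iff] at hcon
  set T := ∫ b, min (D b) R ∂ν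
  obtain ⟨⟨hTJ, hT1⟩, hTk⟩ := hcon
  have hT : 0 < T := by linarith
  set L := l * T
  have hL : 0 < L := by positivity
  have hR0 : (0:ℝ) ≤ R := Nat.cast_nonneg R
  have hmin : ∀ S : ℝ, 0 ≤ S → Integrable (fun b => min (D b) S) ν := fun S hS =>
    Integrable.of_bound (hDm.min measurable_const).aestronglyMeasurable S (ae_of_all _ fun b => by
      rw [Real.norm_eq_abs, abs_of_nonneg (le_min (hD0 b) hS)]; exact min_le_right _ _)
  have hmin2 : ∀ S : ℝ, 0 ≤ S → Integrable (fun b => min (D b) S ^ 2) ν := fun S hS =>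
    Integrable.of_bound ((hDm.min measurable_const).pow_const 2).aestronglyMeasurable (S ^ 2)
      (ae_of_all _ fun b => by
        rw [Real.norm_eq_abs, abs_of_nonneg (sq_nonneg _)]
        exact pow_le_pow_left₀ (le_min (hD0 b) hS) (min_le_right _ _) 2)
  let hex := pow_unbounded_of_one_lt ((R:ℝ) / L) one_lt_two
  set B := Nat.find hex
  have hBR : (R:ℝ) < L * 2 ^ B := by
    have h := Nat.find_spec hex
    rw [div_lt_iff₀ hL] at h
    linarith
  have hlow : ∀ i < B, L * 2 ^ i ≤ R := fun i hi => by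
    have h := Nat.find_min hex hi
    rw [not_lt, le_div_iff₀ hL] at h
    linarith
  let u : ℕ → ℝ := fun i => 2 ^ i * ν.real {b | L * 2 ^ i < D b}
  let e : ℕ → β → ℝ := fun i b =>
    L * 2 ^ i * (Set.Ioi (L * 2 ^ i)).indicator (fun _ => (1:ℝ)) (D b)
  have hei : ∀ i, Integrable (e i) ν ∧ ∫ b, e i b ∂ν = L * u i := fun i => by
    have hs : MeasurableSet {b | L * 2 ^ i < D b} := measurableSet_lt measurable_const hDm
    have he : e i = fun b =>
        L * 2 ^ i * {b | L * 2 ^ i < D b}.indicator (fun _ => (1:ℝ)) b := rfl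
    rw [he]
    refine ⟨((integrable_const (1:ℝ)).indicator hs).const_mul _, ?_⟩
    rw [integral_const_mul, integral_indicator_const _ hs]
    simp [u, mul_assoc]
  -- (i) cover
  have hcov : T ≤ ∫ b, min (D b) (L * 2 ^ i0) ∂ν + L * ∑ i ∈ Ico i0 B, u i := by
    calc T ≤ ∫ b, (min (D b) (L * 2 ^ i0) + ∑ i ∈ Ico i0 B, e i b) ∂ν :=
          integral_mono (hmin _ hR0)
            ((hmin _ (by positivity)).add (integrable_finsetSum _ fun i _ => (hei i).1))
            fun b => (min_le_min le_rfl hBR.le).trans (dyadic_cover hL.le (D b) i0 B)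
      _ = _ := by
          rw [integral_add (hmin _ (by positivity))
              (integrable_finsetSum _ fun i _ => (hei i).1),
            integral_finsetSum _ fun i _ => (hei i).1, mul_sum]
          exact congrArg _ (sum_congr rfl fun i _ => (hei i).2)
  -- (ii) first moment
  have hU2 : L * ∑ i ∈ range B, u i ≤ 2 * T := by
    calc L * ∑ i ∈ range B, u i = ∫ b, ∑ i ∈ range B, e i b ∂ν := by
          rw [integral_finsetSum _ fun i _ => (hei i).1, mul_sum]
          exact sum_congr rfl fun i _ => (hei i).2.symm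
      _ ≤ ∫ b, 2 * min (D b) R ∂ν :=
          integral_mono (integrable_finsetSum _ fun i _ => (hei i).1) ((hmin _ hR0).const_mul 2)
            fun b => dyadic_indicator hL.le (hD0 b) hR0 B hlow
      _ = _ := integral_const_mul _ _
  -- (iii) second moment
  let E2 : ℕ → ℝ := fun i => (∫ b, min (D b) (L * 2 ^ i) ^ 2 ∂ν) / 2 ^ i
  have hE2 : ∑ i ∈ range B, E2 i ≤ 8 * L * T := by
    calc ∑ i ∈ range B, E2 i = ∫ b, ∑ i ∈ range B, min (D b) (L * 2 ^ i) ^ 2 / 2 ^ i ∂ν := by
          rw [integral_finsetSum _ fun i _ => (hmin2 _ (by positivity)).div_const _]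
          exact sum_congr rfl fun i _ => (integral_div _ _).symm
      _ ≤ ∫ b, 8 * L * min (D b) R ∂ν :=
          integral_mono (integrable_finsetSum _ fun i _ => (hmin2 _ (by positivity)).div_const _)
            ((hmin _ hR0).const_mul _) fun b => dyadic_square hL.le (hD0 b) hR0 B hlow
      _ = _ := integral_const_mul _ _
  let hh : ℕ → ℝ := fun i => 2 ^ i * ν.real {b | 4 * m * 2 ^ i < H b}
  -- (iv) one scale
  have hscale : ∀ i ∈ Ico i0 B,
      u i ≤ 2 * hh i + 2 * ρ * (4 / (Cn * m1 ^ 2) / 2 ^ i + Cn * u i + E2 i / (Cn * T ^ 2)) := by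
    intro i hi
    obtain ⟨hii, hiB⟩ := mem_Ico.1 hi
    have hwa : a ≤ 4 * m * 2 ^ i := by
      have h1 := (div_le_iff₀ (by positivity)).1 hi0a
      have h2 : (2:ℝ) ^ i0 ≤ 2 ^ i := pow_le_pow_right₀ one_le_two hii
      rw [mul_comm]
      exact h1.trans (mul_le_mul_of_nonneg_right h2 (by positivity))
    exact one_scale hHm hDm hD0 hH0 hH hc hc1 hkey hGm hG1 hGH hc0 hcone rfl hm rfl hm1
      hCn1 hCn2 hCn3 hκ hκδ hκc hl8 rfl hR0 rfl hTJ hT1 hwa (hlow i hiB)
  -- (v) tail of the height
  have hhh : ∑ i ∈ Ico i0 B, hh i ≤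
      (∫ b, {b | 4 * m * 2 ^ i0 < H b}.indicator H b ∂ν) / (2 * m) :=
    tail_sum ν hHm hH0 hH hm i0 B
  -- (vi) conclusion
  have hsub : Ico i0 B ⊆ range B := fun j hj => mem_range.2 (mem_Ico.1 hj).2
  have hu0 : ∀ i, 0 ≤ u i := fun i => by positivity
  have hgeo : ∑ i ∈ Ico i0 B, (1:ℝ) / 2 ^ i ≤ 2 := by
    refine (sum_le_sum_of_subset_of_nonneg hsub fun i _ _ => by positivity).trans ?_
    simp_rw [← one_div_pow]
    exact sum_geometric_two_le B
  set U := ∑ i ∈ Ico i0 B, u i
  have hUB : ∑ i ∈ Ico i0 B, u i ≤ 2 / l := by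
    refine (sum_le_sum_of_subset_of_nonneg hsub fun i _ _ => hu0 i).trans ?_
    rw [le_div_iff₀ hl]
    refine le_of_mul_le_mul_left ?_ hT
    calc T * ((∑ i ∈ range B, u i) * l) = L * ∑ i ∈ range B, u i := by simp only [L]; ring
      _ ≤ 2 * T := hU2
      _ = T * 2 := by ring
  have hEB : ∑ i ∈ Ico i0 B, E2 i / (Cn * T ^ 2) ≤ 8 * l / Cn := by
    rw [← sum_div, div_le_iff₀ (by positivity)]
    refine ((sum_le_sum_of_subset_of_nonneg hsub fun i _ _ => by positivity).trans hE2).trans
      (le_of_eq ?_)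
    simp only [L]; field_simp
  have hKB : ∑ i ∈ Ico i0 B, 4 / ((Cn:ℝ) * m1 ^ 2) / 2 ^ i ≤ K0 := by
    calc ∑ i ∈ Ico i0 B, 4 / ((Cn:ℝ) * m1 ^ 2) / 2 ^ i
        = 4 / ((Cn:ℝ) * m1 ^ 2) * ∑ i ∈ Ico i0 B, 1 / (2:ℝ) ^ i := by
          rw [mul_sum]; exact sum_congr rfl fun i _ => by ring
      _ ≤ 4 / ((Cn:ℝ) * m1 ^ 2) * 2 := mul_le_mul_of_nonneg_left hgeo (by positivity)
      _ = K0 := by simp only [K0]; ring
  have hUle : U ≤ 2 * ((∫ b, {b | 4 * m * 2 ^ i0 < H b}.indicator H b ∂ν) / (2 * m)) +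
      2 * ρ * (K0 + Cn * (2 / l) + 8 * l / Cn) := by
    refine (sum_le_sum hscale).trans ?_
    rw [sum_add_distrib, ← mul_sum, ← mul_sum, sum_add_distrib, sum_add_distrib, ← mul_sum]
    exact add_le_add (mul_le_mul_of_nonneg_left hhh zero_le_two) (mul_le_mul_of_nonneg_left
      (add_le_add (add_le_add hKB (mul_le_mul_of_nonneg_left hUB (by positivity))) hEB)
      (by positivity))
  have hA : ∫ b, min (D b) (L * 2 ^ i0) ∂ν ≤ T / 4 := by
    have h1 : ∀ b, min (D b) (L * 2 ^ i0) ≤ T * min (D b / ((k0:ℝ) + 1)) (l * 2 ^ i0) := by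
      intro b
      rw [mul_min_of_nonneg _ _ hT.le]
      refine min_le_min ?_ (le_of_eq (by simp only [L]; ring))
      calc D b = ((k0:ℝ) + 1) * (D b / ((k0:ℝ) + 1)) := by field_simp
        _ ≤ T * (D b / ((k0:ℝ) + 1)) :=
          mul_le_mul_of_nonneg_right hTk.le (div_nonneg (hD0 b) (by positivity))
    have h2 : Integrable (fun b => min (D b / ((k0:ℝ) + 1)) (l * 2 ^ i0)) ν :=
      Integrable.of_bound ((hDm.div_const _).min measurable_const).aestronglyMeasurable
        (l * 2 ^ i0) (ae_of_all _ fun b => by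
          rw [Real.norm_eq_abs, abs_of_nonneg (le_min (div_nonneg (hD0 b) (by positivity))
            (by positivity))]
          exact min_le_right _ _)
    calc ∫ b, min (D b) (L * 2 ^ i0) ∂ν
        ≤ ∫ b, T * min (D b / ((k0:ℝ) + 1)) (l * 2 ^ i0) ∂ν :=
          integral_mono (hmin _ (by positivity)) (h2.const_mul T) h1
      _ = T * ∫ b, min (D b / ((k0:ℝ) + 1)) (l * 2 ^ i0) ∂ν := integral_const_mul _ _
      _ ≤ T * (1 / 4) := by gcongr
      _ = _ := by ring
  have hfin : l * U ≤ 1 / 2 := by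
    refine (mul_le_mul_of_nonneg_left hUle hl.le).trans ?_
    have h1 : l * (2 * ((∫ b, {b | 4 * m * 2 ^ i0 < H b}.indicator H b ∂ν) / (2 * m))) =
        l / m * ∫ b, {b | 4 * m * 2 ^ i0 < H b}.indicator H b ∂ν := by field_simp
    have h2 : (Cn:ℝ) * (2 / l) ≤ 2 * Cn := by
      rw [mul_div, div_le_iff₀ hl, mul_comm (2:ℝ)]
      exact le_mul_of_one_le_right (by positivity) (by linarith [(Nat.cast_nonneg Cn : (0:ℝ) ≤ Cn)])
    have h3 : 8 * l / Cn ≤ 8 * l := div_le_self (by positivity) hCn3.le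
    have h4 : l * (2 * ρ * (K0 + Cn * (2 / l) + 8 * l / Cn)) ≤
        2 * (ρ * l * (K0 + 2 * Cn + 8 * l)) := by
      calc l * (2 * ρ * (K0 + Cn * (2 / l) + 8 * l / Cn))
          ≤ l * (2 * ρ * (K0 + 2 * Cn + 8 * l)) := by gcongr
        _ = _ := by ring
    rw [mul_add, h1]
    linarith
  have h5 : L * U ≤ T / 2 := by
    calc L * U = T * (l * U) := by simp only [L]; ring
      _ ≤ T * (1 / 2) := by gcongr
      _ = _ := by ring
  linarith

end Vale.Agent.P147.Dir
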