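import Vale.Agent.P147.Dir.Blocks

/-!
P147: reading a path through its regeneration blocks.
-/

open MeasureTheory Filter Finset
open scoped ENNReal

namespace Vale.Agent.P147.Dir

open Vale.Agent.P147.Cond

variable {d k : ℕ} [NeZero k] (v : Fin k → Site d) (ht f : Site d →+ ℝ)

/-- The properties of the regeneration structure of a path. -/
def Regular (t : ℕ → Fin k) : Prop :=
  t ∈ StayUp v ht ∧ ∀ i,
    regTime v ht i t < regTime v ht (i + 1) t ∧ shift (regTime v ht i t) t ∈ stay v ht ∧
    Rec v ht (regTime v ht i t) t ∧ blen (block v ht i t) =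
      regTime v ht (i + 1) t - regTime v ht i t ∧
    ∀ j ≤ blen (block v ht i t), bpos v (block v ht i t) j =
      pos v t (regTime v ht i t + j) - pos v t (regTime v ht i t)

variable {v ht}

theorem Regular.strictMono {t : ℕ → Fin k} (h : Regular v ht t) :
    StrictMono fun i => regTime v ht i t :=
  strictMono_nat_of_lt_succ fun i => (h.2 i).1

theorem Regular.sum_block {t : ℕ → Fin k} (h : Regular v ht t) (j : ℕ) :
    ∑ i ∈ range j, f (bpos v (block v ht i t) (blen (block v ht i t))) =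
      f (pos v t (regTime v ht j t)) := by
  induction j with
  | zero => simp [regTime, pos]
  | succ j ih =>
    rw [sum_range_succ, ih, (h.2 j).2.2.2.2 _ le_rfl, map_sub, (h.2 j).2.2.2.1,
      Nat.add_sub_cancel' (h.2 j).1.le]
    ring

theorem Regular.sum_bH {t : ℕ → Fin k} (h : Regular v ht t) (j : ℕ) :
    ∑ i ∈ range j, bH v ht (block v ht i t) = ht (pos v t (regTime v ht j t)) :=
  h.sum_block ht j

theorem Regular.sum_bY {t : ℕ → Fin k} (h : Regular v ht t) (j : ℕ) :
    ∑ i ∈ range j, bY v f (block v ht i t) = f (pos v t (regTime v ht j t)) :=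
  h.sum_block f j

theorem Regular.abs_sub_le {t : ℕ → Fin k} (h : Regular v ht t) {j m : ℕ}
    (h1 : regTime v ht j t ≤ m) (h2 : m ≤ regTime v ht (j + 1) t) :
    |f (pos v t m) - f (pos v t (regTime v ht j t))| ≤ bD v f (block v ht j t) := by
  obtain ⟨q, rfl⟩ := Nat.exists_eq_add_of_le h1
  have hq : q ≤ blen (block v ht j t) := by rw [(h.2 j).2.2.2.1]; omega
  rw [← map_sub, ← (h.2 j).2.2.2.2 q hq]
  exact le_sup' (fun i => |f (bpos v (block v ht j t) i)|) (mem_range.2 (Nat.lt_succ_of_le hq))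

theorem bD_nonneg (v : Fin k → Site d) (b : Blk k) : 0 ≤ bD v f b :=
  le_sup'_of_le (fun i => |f (bpos v b i)|) (mem_range.2 (Nat.succ_pos _)) (abs_nonneg _)

theorem abs_bY_le (v : Fin k → Site d) (b : Blk k) : |bY v f b| ≤ bD v f b :=
  le_sup' (fun i => |f (bpos v b i)|) (mem_range.2 (Nat.lt_succ_self _))

theorem Regular.abs_le_sum {t : ℕ → Fin k} (h : Regular v ht t) {j m : ℕ}
    (h1 : regTime v ht j t ≤ m) (h2 : m ≤ regTime v ht (j + 1) t) :
    |f (pos v t m)| ≤ ∑ i ∈ range (j + 1), bD v f (block v ht i t) := by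
  have e1 := h.abs_sub_le f h1 h2
  have e2 : |f (pos v t (regTime v ht j t))| ≤ ∑ i ∈ range j, bD v f (block v ht i t) := by
    rw [← h.sum_bY f j]
    exact (abs_sum_le_sum_abs _ _).trans (sum_le_sum fun i _ => abs_bY_le f v _)
  have e3 := abs_sub_abs_le_abs_sub (f (pos v t m)) (f (pos v t (regTime v ht j t)))
  rw [sum_range_succ]
  linarith

theorem Regular.exists_block {t : ℕ → Fin k} (h : Regular v ht t) (m : ℕ) :
    ∃ j, regTime v ht j t ≤ m ∧ m < regTime v ht (j + 1) t := by
  classical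
  have hex : ∃ j, m < regTime v ht j t := ⟨m + 1, lt_of_lt_of_le m.lt_succ_self h.strictMono.le_apply⟩
  rcases hj : Nat.find hex with _ | j
  · have := Nat.find_spec hex
    rw [hj] at this
    simp [regTime] at this
  · refine ⟨j, not_lt.1 (Nat.find_min hex (by omega)), ?_⟩
    have := Nat.find_spec hex
    rwa [hj] at this

theorem Regular.le_height {t : ℕ → Fin k} (h : Regular v ht t) {j m : ℕ}
    (h1 : regTime v ht j t ≤ m) : ht (pos v t (regTime v ht j t)) ≤ ht (pos v t m) := by
  obtain ⟨q, rfl⟩ := Nat.exists_eq_add_of_le h1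
  have := (h.2 j).2.1 q
  rw [pos_add, map_add]
  exact le_add_of_nonneg_right this

theorem Regular.height_le {t : ℕ → Fin k} (h : Regular v ht t) {j m : ℕ}
    (h1 : m ≤ regTime v ht j t) : ht (pos v t m) ≤ ht (pos v t (regTime v ht j t)) := by
  rcases eq_or_lt_of_le h1 with e | e
  · rw [e]
  · exact ((h.2 j).2.2.1 m e).le

theorem measurable_shift (n : ℕ) : Measurable (shift n : (ℕ → Fin k) → ℕ → Fin k) :=
  measurable_pi_lambda _ fun i => measurable_pi_apply (n + i)

variable (v ht)

/-- `ht` scaled by `K`, plus `Y`. -/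
def mix (K : ℝ) (Y : Site d →+ ℝ) : Site d →+ ℝ := (AddMonoidHom.mulLeft K).comp ht + Y

theorem mix_apply (K : ℝ) (Y : Site d →+ ℝ) (x : Site d) :
    mix ht K Y x = K * ht x + Y x := by
  simp [mix]

end Vale.Agent.P147.Dir
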