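import Vale.Agent.P147.Dir.Walk
import Vale.Agent.P147.Dir.Paths
import Vale.Agent.P147.Dir.Core

/-!
P147: the key inequality and the integrable lateral displacement of a block.
-/

open MeasureTheory Filter Finset
open scoped ENNReal

namespace Vale.Agent.P147.Dir

open Vale.Agent.P147.Cond

variable {d k : ℕ} [NeZero k] (v : Fin k → Site d) (μ : Measure (Row k)) [IsProbabilityMeasure μ]
  (ht Y : Site d →+ ℝ)

theorem upLaw_real (S : Set (ℕ → Fin k)) (hS : MeasurableSet S) :
    (upLaw v μ ht).real S =
      ((law v μ).real (StayUp v ht))⁻¹ * (law v μ).real (S ∩ StayUp v ht) := by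
  rw [Measure.real, upLaw, Measure.smul_apply, Measure.restrict_apply hS, smul_eq_mul,
    ENNReal.toReal_mul, ENNReal.toReal_inv]
  rfl

theorem isProbability_upLaw (h : law v μ (StayUp v ht) ≠ 0) :
    IsProbabilityMeasure (upLaw v μ ht) := by
  refine ⟨?_⟩
  rw [upLaw, Measure.smul_apply, Measure.restrict_apply_univ, smul_eq_mul]
  exact ENNReal.inv_mul_cancel h (measure_ne_top _ _)

theorem real_mono_ae {Ω : Type*} [MeasurableSpace Ω] {P : Measure Ω} [IsFiniteMeasure P]
    {A B : Set Ω} (h : A ≤ᵐ[P] B) : P.real A ≤ P.real B :=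
  ENNReal.toReal_mono (measure_ne_top _ _) (measure_mono_ae h)

theorem exists_step (h : law v μ (up v ht) ≠ 0) :
    ∃ i0, 0 < ht (v i0) ∧ law v μ {t | t 0 = i0} ≠ 0 := by
  by_contra hc
  push Not at hc
  refine h (measure_mono_null ?_ (measure_iUnion_null fun m => measure_iUnion_null fun i =>
    measure_iUnion_null fun hi : 0 < ht (v i) => law_shift_null v μ m
      ((measurableSet_singleton i).preimage (measurable_pi_apply 0)) (hc i hi)))
  intro t ht'
  by_contra hn
  simp only [Set.mem_iUnion, not_exists] at hn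
  have hle : ∀ m, ht (pos v t m) ≤ 0 := fun m => by
    rw [pos, map_sum]
    exact sum_nonpos fun j _ => not_lt.1 fun hj => hn j (t j) hj rfl
  obtain ⟨m, hm⟩ := (tendsto_atTop.1 ht' 1).exists
  linarith [hle m]

theorem key (h : law v μ (StayUp v ht) ≠ 0) (ν : Measure (Blk k)) [IsProbabilityMeasure ν]
    (hν : (upLaw v μ ht).map (fun t i => block v ht i t) = Measure.infinitePi (fun _ : ℕ => ν))
    (i0 : Fin k) (hi0 : 0 < ht (v i0)) (a J : ℝ) (ha : ∀ i, |ht (v i)| ≤ a)
    (hJ : ∀ i, |Y (v i)| ≤ J) :
    ∀ (K top lam c0 x y : ℝ) (N M n : ℕ), 0 < lam → 0 < c0 → 0 ≤ top → 0 ≤ x →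
      top < c0 * N → lam + J ≤ K * ht (v i0) → lam ≤ K * c0 →
      x + n * (K * (a + a + top) + lam * N + 2 * J) ≤ y →
      (law v μ).real {t | t 0 = i0} * (law v μ).real (StayUp v ht) *
          (Measure.infinitePi fun _ : ℕ => ν).real (coneSet (bH v ht) (bD v Y) lam c0 N) *
          (Measure.infinitePi fun _ : ℕ => ν).real (badSet (bH v ht) (bD v Y) top (2 * y) M) ≤
        2 * (1 - (law v μ).real {t | t 0 = i0} * (law v μ).real (StayUp v ht) *
            (Measure.infinitePi fun _ : ℕ => ν).real (coneSet (bH v ht) (bD v Y) lam c0 N)) ^ n *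
          ((Measure.infinitePi fun _ : ℕ => ν).real {s | ∑ i ∈ range N, bH v ht (s i) ≤ top} +
            (Measure.infinitePi fun _ : ℕ => ν).real
              {s | x - K * top < ∑ i ∈ range N, bD v Y (s i)}) := by
  intro K top lam c0 x y N M n hlam hc0 htop hx hN hK1 hK2 hy
  set p := (law v μ).real (StayUp v ht) with hp
  set q := (law v μ).real {t | t 0 = i0} with hq
  set Ph := fun (t : ℕ → Fin k) (i : ℕ) => block v ht i t with hPhd
  have hPh : Measurable Ph := measurable_pi_lambda _ fun i => measurable_block v ht i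
  set Q := Measure.infinitePi fun _ : ℕ => ν with hQd
  have hp0 : 0 < p := ENNReal.toReal_pos h (measure_ne_top _ _)
  have hbm : ∀ g : Blk k → ℝ, ∀ i, Measurable fun s : ℕ → Blk k => g (s i) := fun g i =>
    Measurable.comp (g := g) measurable_from_top (measurable_pi_apply i)
  have hrealQ : ∀ S : Set (ℕ → Blk k), MeasurableSet S →
      p * Q.real S = (law v μ).real (Ph ⁻¹' S ∩ StayUp v ht) := fun S hS => by
    rw [← hν, map_measureReal_apply hPh hS, upLaw_real v μ ht _ (hPh hS), ← hp,
      ← mul_assoc, mul_inv_cancel₀ hp0.ne', one_mul]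
  have hreg : ∀ᵐ t ∂law v μ, t ∈ StayUp v ht → Regular v ht t := by
    have := regTime_reg v μ ht h
    rw [ae_iff, upLaw, Measure.smul_apply, smul_eq_mul, mul_eq_zero] at this
    replace this := this.resolve_left (ENNReal.inv_ne_zero.2 (measure_ne_top _ _))
    rw [← ae_iff, ae_restrict_iff' (measurableSet_StayUp v ht)] at this
    filter_upwards [this] with t ht' hs using ht' hs
  have hJ0 : 0 ≤ J := (abs_nonneg _).trans (hJ i0)
  have ha0 : ht (v i0) ≤ a := (le_abs_self _).trans (ha i0)
  have hK : 0 < K := by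
    by_contra hK
    nlinarith [mul_nonpos_of_nonpos_of_nonneg (not_lt.1 hK) hc0.le]
  set W := K * (a + top) + J + lam * N with hWd
  have hlN : 0 ≤ lam * N := by positivity
  have hW : 0 ≤ W := by
    have := mul_nonneg hK.le (add_nonneg (hi0.le.trans ha0) htop)
    linarith
  set Ys : Bool → Site d →+ ℝ := fun b => if b then Y else -Y
  have hYs : ∀ b z, |Ys b z| = |Y z| := fun b z => by cases b <;> simp [Ys]
  set fs : Bool → Site d →+ ℝ := fun b => mix ht K (Ys b) with hfs
  have hfJ : ∀ b i, fs b (v i) ≤ K * a + J := fun b i => by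
    rw [hfs, mix_apply]
    exact add_le_add (mul_le_mul_of_nonneg_left ((le_abs_self _).trans (ha i)) hK.le)
      (((le_abs_self _).trans_eq (hYs b (v i))).trans (hJ i))
  have hconeM : MeasurableSet (coneSet (bH v ht) (bD v Y) lam c0 N) := by
    simp only [coneSet, Set.setOf_and, Set.setOf_forall]
    exact (MeasurableSet.iInter fun j => measurableSet_le measurable_const
      (Finset.measurable_sum _ fun i _ => hbm _ i)).inter (.iInter fun j => .iInter fun _ =>
      measurableSet_le (Finset.measurable_sum _ fun i _ => hbm _ i) measurable_const)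
  have hbadM : MeasurableSet (badSet (bH v ht) (bD v Y) top (2 * y) M) := by
    have : badSet (bH v ht) (bD v Y) top (2 * y) M = ⋃ (i : ℕ) (_ : i < M),
        {s | 2 * y < bD v Y (s i)} ∩ {s | ∑ j ∈ range (i + 1), bH v ht (s j) ≤ top} := by
      ext s
      simp only [badSet, Set.mem_setOf_eq, Set.mem_iUnion, Set.mem_inter_iff, exists_prop]
    rw [this]
    exact .iUnion fun i => .iUnion fun _ => (measurableSet_lt measurable_const (hbm _ i)).inter
      (measurableSet_le (Finset.measurable_sum _ fun j _ => hbm _ j) measurable_const)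
  set cone := coneSet (bH v ht) (bD v Y) lam c0 N
  set R1 := Q.real {s | ∑ i ∈ range N, bH v ht (s i) ≤ top}
  set R2 := Q.real {s | x - K * top < ∑ i ∈ range N, bD v Y (s i)}
  -- the cone
  have hcone : ∀ b, p * Q.real cone ≤ (law v μ).real (Cone v ht (fs b) i0 top W) := fun b => by
    rw [hrealQ _ hconeM]
    refine real_mono_ae ?_
    filter_upwards [hreg] with t hr hs
    obtain ⟨⟨hsH, hsD⟩, hst⟩ := hs
    replace hr := hr hst
    refine ⟨hst, fun m => ?_⟩
    obtain ⟨j, hj1, hj2⟩ := hr.exists_block m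
    have hjH : c0 * j ≤ ht (pos v t m) := by
      refine le_trans ?_ (hr.le_height hj1)
      rw [← hr.sum_bH]
      exact hsH j
    simp only [hfs, mix_apply]
    have hY0 : |Ys b (v i0)| ≤ J := (hYs b _).trans_le (hJ i0)
    rw [abs_le] at hY0
    rcases lt_or_ge j N with hjN | hjN
    · have hYm : |Ys b (pos v t m)| ≤ lam * (j + 1) := by
        rw [hYs]
        refine (hr.abs_le_sum Y hj1 hj2.le).trans ?_
        have := hsD (j + 1) hjN
        simpa using this
      rw [abs_le] at hYm
      have h3 : lam * j ≤ K * ht (pos v t m) := by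
        calc lam * j ≤ K * c0 * j := by gcongr
          _ ≤ K * ht (pos v t m) := by rw [mul_assoc]; gcongr
      refine ⟨Or.inl (by linarith), fun hm => ?_⟩
      have h4 : lam * (j + 1) ≤ lam * N := by gcongr; exact_mod_cast hjN
      have h5 : K * ht (v i0) ≤ K * a := by gcongr
      have h6 : K * ht (pos v t m) ≤ K * top := by gcongr; exact hm m le_rfl
      linarith
    · have htm : top < ht (pos v t m) :=
        hN.trans_le ((mul_le_mul_of_nonneg_left (Nat.cast_le.2 hjN) hc0.le).trans hjH)
      exact ⟨Or.inr htm, fun hm => absurd (hm m le_rfl) (not_le.2 htm)⟩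
  -- a gain without backtracking
  have hgain : ∀ b, (law v μ).real (StayUp v ht ∩ Gain v ht (fs b) top x) ≤ p * (R1 + R2) := by
    intro b
    have hm1 : MeasurableSet {s : ℕ → Blk k | ∑ i ∈ range N, bH v ht (s i) ≤ top} :=
      measurableSet_le (Finset.measurable_sum _ fun i _ => hbm _ i) measurable_const
    have hm2 : MeasurableSet {s : ℕ → Blk k | x - K * top < ∑ i ∈ range N, bD v Y (s i)} :=
      measurableSet_lt measurable_const (Finset.measurable_sum _ fun i _ => hbm _ i)
    rw [mul_add, hrealQ _ hm1, hrealQ _ hm2]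
    refine le_trans ?_ (measureReal_union_le _ _)
    refine real_mono_ae ?_
    filter_upwards [hreg] with t hr hs
    obtain ⟨hst, m, hwin, hfm⟩ := hs
    replace hr := hr hst
    by_cases hS : ∑ i ∈ range N, bH v ht (block v ht i t) ≤ top
    · exact Or.inl ⟨hS, hst⟩
    · refine Or.inr ⟨?_, hst⟩
      obtain ⟨j, hj1, hj2⟩ := hr.exists_block m
      have hjN : j < N := by
        by_contra hjN
        refine hS ?_
        rw [hr.sum_bH]
        exact (hr.le_height ((hr.strictMono.monotone (not_lt.1 hjN)).trans hj1)).trans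
          (hwin m le_rfl).2
      have h1 : |Y (pos v t m)| ≤ ∑ i ∈ range N, bD v Y (block v ht i t) :=
        (hr.abs_le_sum Y hj1 hj2.le).trans (sum_le_sum_of_subset_of_nonneg
          (range_subset_range.2 hjN) fun i _ _ => bD_nonneg Y v _)
      simp only [hfs, mix_apply] at hfm
      have h2 := (le_abs_self _).trans_eq (hYs b (pos v t m))
      have h6 : K * ht (pos v t m) ≤ K * top := by gcongr; exact (hwin m le_rfl).2
      show x - K * top < ∑ i ∈ range N, bD v Y (block v ht i t)
      linarith
  -- the decay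
  have hdec : ∀ b, q * (p * Q.real cone) * (law v μ).real (Gain v ht (fs b) top y) ≤
      (1 - q * (p * Q.real cone)) ^ n * (p * (R1 + R2)) := fun b => by
    have hyx : x + n * (W + (K * a + J)) ≤ y := by
      refine le_trans (le_of_eq ?_) hy
      ring
    have hmono : Gain v ht (fs b) top y ⊆ Gain v ht (fs b) top (x + n * (W + (K * a + J))) :=
      fun t ⟨m, h1, h2⟩ => ⟨m, h1, hyx.trans_lt h2⟩
    have hg := gain_le v μ ht (fs b) i0 hi0 top x W (K * a + J) hx hW
      (add_nonneg (mul_nonneg hK.le (hi0.le.trans ha0)) hJ0) (hfJ b) n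
    have hle : law v μ {t | t 0 = i0} * law v μ (Cone v ht (fs b) i0 top W) ≤ 1 :=
      mul_le_one' prob_le_one prob_le_one
    have hg' := ENNReal.toReal_mono (ENNReal.mul_ne_top (ENNReal.pow_ne_top
      (ne_top_of_le_ne_top ENNReal.one_ne_top tsub_le_self)) (measure_ne_top _ _)) hg
    simp only [ENNReal.toReal_mul, ENNReal.toReal_pow,
      ENNReal.toReal_sub_of_le hle ENNReal.one_ne_top, ENNReal.toReal_one] at hg'
    change _ * (q * (law v μ).real (Cone v ht (fs b) i0 top W)) ≤
      (1 - q * (law v μ).real (Cone v ht (fs b) i0 top W)) ^ n * (law v μ).real _ at hg'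
    have hq0 : 0 ≤ q := measureReal_nonneg
    have hc1 : q * (law v μ).real (Cone v ht (fs b) i0 top W) ≤ 1 :=
      mul_le_one₀ measureReal_le_one measureReal_nonneg measureReal_le_one
    calc q * (p * Q.real cone) * (law v μ).real (Gain v ht (fs b) top y)
        ≤ q * (law v μ).real (Cone v ht (fs b) i0 top W) *
            (law v μ).real (Gain v ht (fs b) top (x + n * (W + (K * a + J)))) := by
          gcongr
          · exact hcone b
          · exact measure_ne_top _ _
      _ ≤ (1 - q * (law v μ).real (Cone v ht (fs b) i0 top W)) ^ n *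
            (law v μ).real (StayUp v ht ∩ Gain v ht (fs b) top x) := by
          rw [mul_comm]; exact hg'
      _ ≤ _ := by
          refine mul_le_mul ?_ (hgain b) measureReal_nonneg
            (pow_nonneg (sub_nonneg.2 ((mul_le_mul_of_nonneg_left (hcone b) hq0).trans hc1)) _)
          exact pow_le_pow_left₀ (sub_nonneg.2 hc1)
            (sub_le_sub_left (mul_le_mul_of_nonneg_left (hcone b) hq0) 1) _
  -- a bad block
  have hbad : p * Q.real (badSet (bH v ht) (bD v Y) top (2 * y) M) ≤
      (law v μ).real (Gain v ht (fs true) top y) + (law v μ).real (Gain v ht (fs false) top y) := by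
    rw [hrealQ _ hbadM]
    refine le_trans ?_ (measureReal_union_le _ _)
    refine real_mono_ae ?_
    filter_upwards [hreg] with t hr hs
    obtain ⟨⟨i, -, hiD, hiH⟩, hst⟩ := hs
    replace hr := hr hst
    rw [hr.sum_bH] at hiH
    have hwin : ∀ m ≤ regTime v ht (i + 1) t, ∀ j ≤ m,
        0 ≤ ht (pos v t j) ∧ ht (pos v t j) ≤ top := fun m hm j hj =>
      ⟨hst.1 j, (hr.height_le (hj.trans hm)).trans hiH⟩
    obtain ⟨j, hj, hjeq⟩ := (Finset.range (blen (block v ht i t) + 1)).exists_mem_eq_sup'
      Finset.nonempty_range_add_one fun j => |Y (bpos v (block v ht i t) j)|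
    rw [bD, hjeq, (hr.2 i).2.2.2.2 j (Nat.le_of_lt_succ (mem_range.1 hj)), map_sub] at hiD
    have hm : regTime v ht i t + j ≤ regTime v ht (i + 1) t := by
      have := mem_range.1 hj
      rw [(hr.2 i).2.2.2.1] at this
      have := (hr.2 i).1
      omega
    obtain ⟨m, hm', hYm⟩ : ∃ m ≤ regTime v ht (i + 1) t, y < |Y (pos v t m)| := by
      by_contra hc
      push Not at hc
      have h1 := hc _ hm
      have h2 := hc _ (hr.2 i).1.le
      linarith [abs_sub (Y (pos v t (regTime v ht i t + j))) (Y (pos v t (regTime v ht i t)))]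
    have hh := mul_nonneg hK.le (hst.1 m)
    rcases lt_abs.1 hYm with hpos | hneg
    · refine Or.inl ⟨m, hwin m hm', ?_⟩
      simp only [hfs, mix_apply, Ys, if_true]
      linarith
    · refine Or.inr ⟨m, hwin m hm', ?_⟩
      simp only [hfs, mix_apply, Ys, Bool.false_eq_true, if_false, AddMonoidHom.neg_apply]
      linarith
  have h0 : 0 ≤ q * (p * Q.real cone) := by positivity
  refine le_of_mul_le_mul_left ?_ hp0
  calc p * (q * p * Q.real cone * Q.real (badSet (bH v ht) (bD v Y) top (2 * y) M))
      = q * (p * Q.real cone) * (p * Q.real (badSet (bH v ht) (bD v Y) top (2 * y) M)) := by ring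
    _ ≤ q * (p * Q.real cone) * ((law v μ).real (Gain v ht (fs true) top y) +
          (law v μ).real (Gain v ht (fs false) top y)) := mul_le_mul_of_nonneg_left hbad h0
    _ ≤ (1 - q * (p * Q.real cone)) ^ n * (p * (R1 + R2)) +
          (1 - q * (p * Q.real cone)) ^ n * (p * (R1 + R2)) := by
        rw [mul_add]; exact add_le_add (hdec true) (hdec false)
    _ = _ := by ring

/-- The lateral displacement inside a regeneration block is integrable. -/
theorem exists_block_law_integrable (h : law v μ (up v ht) ≠ 0) :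
    ∃ ν : Measure (Blk k), IsProbabilityMeasure ν ∧
      (upLaw v μ ht).map (fun t i => block v ht i t) = Measure.infinitePi (fun _ : ℕ => ν) ∧
      (∀ᵐ b ∂ν, 0 < bH v ht b) ∧ Integrable (bH v ht) ν ∧
      ∀ Y : Site d →+ ℝ, Integrable (bD v Y) ν := by
  have hs := stayUp_ne_zero v μ ht h
  obtain ⟨ν, hνp, hν, hpos, hint⟩ := exists_block_law v μ ht hs
  refine ⟨ν, hνp, hν, hpos, hint, fun Y => ?_⟩
  obtain ⟨i0, hi0, hq⟩ := exists_step v μ ht h
  obtain ⟨a, ha⟩ := (Finset.univ.image fun i => |ht (v i)|).bddAbove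
  obtain ⟨J, hJ⟩ := (Finset.univ.image fun i => |Y (v i)|).bddAbove
  have ha' : ∀ i, |ht (v i)| ≤ a := fun i => ha (mem_image_of_mem _ (mem_univ i))
  have hJ' : ∀ i, |Y (v i)| ≤ J := fun i => hJ (mem_image_of_mem _ (mem_univ i))
  exact integrable_of_key ν (bH v ht) (bD v Y) measurable_from_top measurable_from_top
    (bD_nonneg Y v) hpos hint ((law v μ).real {t | t 0 = i0} * (law v μ).real (StayUp v ht))
    (ht (v i0)) a J
    (mul_pos (ENNReal.toReal_pos hq (measure_ne_top _ _))
      (ENNReal.toReal_pos hs (measure_ne_top _ _)))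
    (mul_le_one₀ measureReal_le_one measureReal_nonneg measureReal_le_one) hi0
    ((abs_nonneg _).trans (ha' i0)) ((abs_nonneg _).trans (hJ' i0))
    (key v μ ht Y hs ν hν i0 hi0 a J ha' hJ')

end Vale.Agent.P147.Dir
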