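import Vale.Agent.P147.Dir.Defs

/-!
P147: regeneration blocks are iid with integrable height.

Regeneration is defined through strict records followed by no backtracking. The renewal identity at
a record (`law_record`) makes the blocks iid under `upLaw`, with no ellipticity assumption. The mean
height of a block is finite because every window of heights of width `a` contains a regeneration
with probability bounded below, while a truncated Wald bound limits the number of regenerations in
`[0, K a]`.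
-/

open MeasureTheory Filter Finset
open scoped ENNReal symmDiff

namespace Vale.Agent.P147.Dir

open Vale.Agent.P147.Cond

variable {d k : ℕ} [NeZero k] (v : Fin k → Site d) (μ : Measure (Row k)) [IsProbabilityMeasure μ]
  (ht f : Site d →+ ℝ)

namespace Blocks

instance : Countable (Blk k) := inferInstanceAs (Countable (List (Fin k)))

instance : MeasurableSingletonClass (Blk k) := ⟨fun _ => trivial⟩

omit [NeZero k] in
theorem meas_shift (n : ℕ) : Measurable (shift n : (ℕ → Fin k) → ℕ → Fin k) :=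
  measurable_pi_lambda _ fun i => measurable_pi_apply (n + i)

omit [NeZero k] in
theorem shift_zero (t : ℕ → Fin k) : shift 0 t = t := by funext i; simp [shift]

omit [NeZero k] in
theorem shift_shift (a b : ℕ) (t : ℕ → Fin k) : shift b (shift a t) = shift (a + b) t := by
  funext i; simp [shift, add_assoc]

theorem height_add (t : ℕ → Fin k) (n m : ℕ) :
    ht (pos v t (n + m)) = ht (pos v t n) + ht (pos v (shift n t) m) := by
  rw [pos_add, map_add]; rfl

omit [NeZero k] in
theorem height_zero (t : ℕ → Fin k) : ht (pos v t 0) = 0 := by simp [pos]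

theorem up_shift_iff (t : ℕ → Fin k) (n : ℕ) : shift n t ∈ up v ht ↔ t ∈ up v ht :=
  shift_invariant (fun s => up_invariant v ht s) n t

theorem meas_StayUp : MeasurableSet (StayUp v ht) :=
  (measurableSet_stay v ht).inter (measurableSet_up v ht)

/-! ### Measurability -/

theorem meas_Reg (n : ℕ) : MeasurableSet {t : ℕ → Fin k | Reg v ht n t} := by
  have h : {t : ℕ → Fin k | Reg v ht n t} =
      (⋂ (j : ℕ) (_ : j < n), {t | ht (pos v t j) < ht (pos v t n)}) ∩
        shift n ⁻¹' stay v ht := by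
    ext t
    simp [Reg, Rec]
  rw [h]
  exact (MeasurableSet.iInter fun j => .iInter fun _ =>
    measurableSet_lt (measurable_height v ht j) (measurable_height v ht n)).inter
    ((measurableSet_stay v ht).preimage (meas_shift n))

omit [NeZero k] in
theorem next_spec {t : ℕ → Fin k} (h : ∃ n, 0 < n ∧ Reg v ht n t) :
    0 < next v ht t ∧ Reg v ht (next v ht t) t ∧
      ∀ m, 0 < m → m < next v ht t → ¬ Reg v ht m t := by
  classical
  have e : next v ht t = Nat.find h := by rw [next, dif_pos h]
  rw [e]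
  exact ⟨(Nat.find_spec h).1, (Nat.find_spec h).2, fun m hm hlt hr =>
    Nat.find_min h hlt ⟨hm, hr⟩⟩

omit [NeZero k] in
theorem next_eq {t : ℕ → Fin k} {n : ℕ} (hn : 0 < n) (hr : Reg v ht n t)
    (hmin : ∀ m, 0 < m → m < n → ¬ Reg v ht m t) : next v ht t = n := by
  obtain ⟨h1, h2, h3⟩ := next_spec v ht ⟨n, hn, hr⟩
  rcases lt_trichotomy (next v ht t) n with h | h | h
  exacts [absurd h2 (hmin _ h1 h), h, absurd hr (h3 n hn h)]

theorem meas_next : Measurable (next v ht : (ℕ → Fin k) → ℕ) := by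
  refine measurable_to_countable' fun n => ?_
  have h : next v ht ⁻¹' {n} =
      ({t | 0 < n ∧ Reg v ht n t} \ ⋃ (m : ℕ) (_ : 0 < m ∧ m < n), {t | Reg v ht m t}) ∪
        ({_t | n = 0} \ ⋃ (m : ℕ) (_ : 0 < m), {t | Reg v ht m t}) := by
    ext t
    simp only [Set.mem_preimage, Set.mem_singleton_iff, Set.mem_union, Set.mem_sdiff,
      Set.mem_ofPred_eq, Set.mem_iUnion, exists_prop, not_exists, not_and]
    constructor
    · intro hn
      by_cases hex : ∃ m, 0 < m ∧ Reg v ht m t
      · obtain ⟨h1, h2, h3⟩ := next_spec v ht hex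
        rw [hn] at h1 h2 h3
        exact Or.inl ⟨⟨h1, h2⟩, fun m hm => h3 m hm.1 hm.2⟩
      · refine Or.inr ⟨?_, fun m hm hr => hex ⟨m, hm, hr⟩⟩
        rw [← hn, next, dif_neg hex]
    · rintro (⟨⟨h1, h2⟩, h3⟩ | ⟨rfl, h3⟩)
      · exact next_eq v ht h1 h2 fun m a b => h3 m ⟨a, b⟩
      · rw [next, dif_neg]
        rintro ⟨m, hm, hr⟩
        exact h3 m hm hr
  rw [h]
  refine MeasurableSet.union (MeasurableSet.diff ?_ ?_) (MeasurableSet.diff ?_ ?_)
  · exact (MeasurableSet.const (0 < n)).inter (meas_Reg v ht n)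
  · exact .iUnion fun m => .iUnion fun _ => meas_Reg v ht m
  · exact MeasurableSet.const (n = 0)
  · exact .iUnion fun m => .iUnion fun _ => meas_Reg v ht m

omit [NeZero k] in
theorem meas_shift_at {g : (ℕ → Fin k) → ℕ} (hg : Measurable g) :
    Measurable fun t => shift (g t) t := by
  have h : ∀ i : ℕ, Measurable fun x : (ℕ → Fin k) × ℕ => x.1 (x.2 + i) := fun i =>
    measurable_from_prod_countable_left fun n => measurable_pi_apply (n + i)
  exact measurable_pi_lambda _ fun i => (h i).comp (measurable_id.prodMk hg)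

theorem meas_regTime (i : ℕ) : Measurable (regTime v ht i : (ℕ → Fin k) → ℕ) := by
  induction i with
  | zero => exact measurable_const
  | succ i ih =>
    simp only [regTime]
    exact ih.add ((meas_next v ht).comp (meas_shift_at ih))

/-- The first block. -/
noncomputable def blk0 (t : ℕ → Fin k) : Blk k :=
  List.ofFn fun j : Fin (next v ht t) => t j

/-- The first `n` steps as a block. -/
def pre (n : ℕ) (t : ℕ → Fin k) : Blk k := List.ofFn fun j : Fin n => t j

omit [NeZero k] in
theorem block_eq (i : ℕ) (t : ℕ → Fin k) :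
    block v ht i t = blk0 v ht (shift (regTime v ht i t) t) := rfl

omit [NeZero k] in
theorem meas_pre (n : ℕ) : Measurable (pre n : (ℕ → Fin k) → Blk k) :=
  (Measurable.of_discrete (β := Blk k) (f := fun w : Fin n → Fin k => List.ofFn w)).comp
    (measurable_pi_lambda _ fun j => measurable_pi_apply (j : ℕ))

theorem meas_blk0 : Measurable (blk0 v ht : (ℕ → Fin k) → Blk k) := by
  refine measurable_to_countable' fun b => ?_
  have h : blk0 v ht ⁻¹' {b} = ⋃ n, next v ht ⁻¹' {n} ∩ pre n ⁻¹' {b} := by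
    ext t
    simp only [Set.mem_preimage, Set.mem_singleton_iff, Set.mem_iUnion, Set.mem_inter_iff]
    refine ⟨fun h => ⟨_, rfl, h⟩, ?_⟩
    rintro ⟨n, rfl, h⟩
    exact h
  rw [h]
  exact .iUnion fun n => (meas_next v ht (measurableSet_singleton n)).inter
    (meas_pre n (measurableSet_singleton b))

omit [NeZero k] in
theorem regTime_succ' (i : ℕ) (t : ℕ → Fin k) :
    regTime v ht (i + 1) t = next v ht t + regTime v ht i (shift (next v ht t) t) := by
  induction i with
  | zero => simp [regTime, shift_zero]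
  | succ i ih =>
    conv_lhs => rw [regTime]
    rw [ih, regTime, shift_shift, add_assoc]

omit [NeZero k] in
theorem block_succ (i : ℕ) (t : ℕ → Fin k) :
    block v ht (i + 1) t = block v ht i (shift (next v ht t) t) := by
  rw [block_eq, block_eq, shift_shift, regTime_succ']

omit [NeZero k] in
theorem block_zero (t : ℕ → Fin k) : block v ht 0 t = blk0 v ht t := by
  rw [block_eq]
  simp [regTime, shift_zero]

/-! ### Regenerations exist -/

/-- Almost surely a path escaping upwards regenerates after time zero. -/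
theorem null_no_reg (h : law v μ (StayUp v ht) ≠ 0) :
    law v μ (up v ht ∩ {t | ∀ n, 0 < n → ¬ Reg v ht n t}) = 0 := by
  classical
  set P := law v μ
  set c := P (StayUp v ht)
  set D := up v ht ∩ {t | ∀ n, 0 < n → ¬ Reg v ht n t}
  have hmc := meas_StayUp v ht
  have hD : MeasurableSet D := by
    refine (measurableSet_up v ht).inter ?_
    simp only [Set.ofPred_forall]
    exact .iInter fun n => .iInter fun _ => (meas_Reg v ht n).compl
  suffices c * P D = 0 from (mul_eq_zero.1 this).resolve_left h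
  refine le_antisymm (ENNReal.le_of_forall_pos_le_add fun ε hε _ => ?_) bot_le
  rw [zero_add]
  have hd : P.MeasureDense (measurableCylinders fun _ : ℕ => Fin k) :=
    Measure.MeasureDense.of_generateFrom_isSetAlgebra_finite P isSetAlgebra_measurableCylinders
      generateFrom_measurableCylinders.symm
  obtain ⟨C, hC, hCε⟩ := hd.approx _ hD (measure_ne_top _ _) (ε / 2 : ℝ) (by positivity)
  obtain ⟨S, S', -, rfl⟩ := (mem_measurableCylinders _).1 hC
  set N := S.sup id + 1
  have hdep : ∀ n, N ≤ n → ∀ t t' : ℕ → Fin k, (∀ i < n, t i = t' i) →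
      t ∈ cylinder S S' → t' ∈ cylinder S S' := fun n hn t t' h ht' => by
    have : S.restrict t = S.restrict t' := funext fun i => h i
      (lt_of_lt_of_le (Nat.lt_succ_of_le (le_sup (f := id) i.2)) hn)
    rw [mem_cylinder] at ht' ⊢
    rwa [← this]
  set E : ℕ → Set (ℕ → Fin k) := fun n =>
    {t | t ∈ cylinder S S' ∧ N ≤ n ∧ Rec v ht n t ∧ ∀ m < n, N ≤ m → ¬ Rec v ht m t}
  have hE : ∀ n, ∀ t t' : ℕ → Fin k, (∀ i < n, t i = t' i) → t ∈ E n → t' ∈ E n := by
    rintro n t t' h ⟨h1, h2, h3, h4⟩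
    refine ⟨hdep n h2 t t' h h1, h2, fun j hj => ?_, fun m hm hNm hr => h4 m hm hNm fun j hj => ?_⟩
    · rw [← pos_congr v h hj.le, ← pos_congr v h le_rfl]; exact h3 j hj
    · rw [pos_congr v h (hj.trans hm).le, pos_congr v h hm.le]; exact hr j hj
  have hsplit : ∀ n, P (E n ∩ {t | shift n t ∈ StayUp v ht}) = P (E n) * c := by
    intro n
    have h1 := decompose v μ n (hE n) _ hmc
    have h2 := decompose v μ n (hE n) Set.univ .univ
    simp only [Set.mem_univ, Set.ofPred_true, Set.inter_univ, and_true] at h2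
    show law v μ (E n ∩ {t | (fun i => t (n + i)) ∈ StayUp v ht}) = _
    rw [h1, h2, sum_mul]
    refine sum_congr rfl fun w _ => ?_
    split_ifs with hw
    · exact law_record v μ ht hw.2.2.1 hmc Set.inter_subset_left
    · rw [zero_mul]
  have hdisj : Pairwise (Function.onFun Disjoint E) := fun a b hab => by
    refine Set.disjoint_left.2 fun t ha hb => ?_
    rcases lt_or_gt_of_ne hab with h | h
    exacts [hb.2.2.2 a h ha.2.1 ha.2.2.1, ha.2.2.2 b h hb.2.1 hb.2.2.1]
  have hEm : ∀ n, MeasurableSet (E n) := fun n => measurableSet_of_prefix n (hE n)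
  have hsh : ∀ n, MeasurableSet {t : ℕ → Fin k | shift n t ∈ StayUp v ht} :=
    fun n => meas_shift n hmc
  have hcov : cylinder S S' ∩ up v ht ⊆ ⋃ n, E n := by
    rintro t ⟨h1, h2⟩
    have hex : ∃ n, N ≤ n ∧ Rec v ht n t := by
      obtain ⟨M, hM⟩ := ((range (N + 1)).image fun j => ht (pos v t j)).bddAbove
      have hex' : ∃ n, M < ht (pos v t n) := ((tendsto_atTop.1 h2 (M + 1)).exists).imp
        fun n hn => lt_of_lt_of_le (lt_add_one M) hn
      have hlow : ∀ j ≤ N, ht (pos v t j) ≤ M := fun j hj =>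
        hM (mem_image_of_mem (fun j => ht (pos v t j)) (mem_range.2 (Nat.lt_succ_of_le hj)))
      refine ⟨Nat.find hex', ?_, fun j hj => ?_⟩
      · by_contra hlt
        exact absurd (Nat.find_spec hex') (not_lt.2 (hlow _ (not_le.1 hlt).le))
      · exact lt_of_le_of_lt (not_lt.1 (Nat.find_min hex' hj)) (Nat.find_spec hex')
    exact Set.mem_iUnion.2 ⟨Nat.find hex, h1, (Nat.find_spec hex).1, (Nat.find_spec hex).2,
      fun m hm hNm hr => Nat.find_min hex hm ⟨hNm, hr⟩⟩
  have key : P (cylinder S S' ∩ up v ht) * c ≤ P (cylinder S S' \ D) := by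
    calc P (cylinder S S' ∩ up v ht) * c ≤ P (⋃ n, E n) * c := by gcongr
      _ = P (⋃ n, E n ∩ {t | shift n t ∈ StayUp v ht}) := by
        rw [measure_iUnion hdisj hEm, measure_iUnion ?_ fun n => (hEm n).inter (hsh n),
          ← ENNReal.tsum_mul_right]
        · exact tsum_congr fun n => (hsplit n).symm
        · exact fun a b hab => (hdisj hab).mono Set.inter_subset_left Set.inter_subset_left
      _ ≤ P (cylinder S S' \ D) := measure_mono <| Set.iUnion_subset fun n t ht' =>
        ⟨ht'.1.1, fun hb => hb.2 n (lt_of_lt_of_le (Nat.succ_pos _) ht'.1.2.1)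
          ⟨ht'.1.2.2.1, ht'.2.1⟩⟩
  have hε2 : P (D ∆ cylinder S S') ≤ (ε / 2 : NNReal) := by
    refine hCε.le.trans (le_of_eq ?_)
    rw [← ENNReal.ofReal_coe_nnreal]
    simp
  have hc1 : c ≤ 1 := prob_le_one
  calc c * P D ≤ c * (P (cylinder S S' ∩ up v ht) + P (D ∆ cylinder S S')) := by
        gcongr
        refine (measure_mono ?_).trans (measure_union_le _ _)
        intro t htm
        by_cases hc : t ∈ cylinder S S'
        · exact Or.inl ⟨hc, htm.1⟩
        · exact Or.inr (Or.inl ⟨htm, hc⟩)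
    _ ≤ P (cylinder S S' \ D) + 1 * P (D ∆ cylinder S S') := by
        rw [mul_add, mul_comm c]
        gcongr
    _ ≤ (ε / 2 : NNReal) + (ε / 2 : NNReal) := by
        rw [one_mul]
        gcongr
        refine (measure_mono ?_).trans hε2
        exact fun t h => Or.inr ⟨h.1, h.2⟩
    _ = ε := by rw [← ENNReal.coe_add, add_halves]

theorem ae_reg_exists (h : law v μ (StayUp v ht) ≠ 0) :
    ∀ᵐ t ∂law v μ, ∀ m, shift m t ∈ StayUp v ht → ∃ n, 0 < n ∧ Reg v ht n (shift m t) := by
  rw [ae_all_iff]
  intro m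
  have hD : MeasurableSet (up v ht ∩ {t | ∀ n, 0 < n → ¬ Reg v ht n t}) := by
    refine (measurableSet_up v ht).inter ?_
    simp only [Set.ofPred_forall]
    exact .iInter fun n => .iInter fun _ => (meas_Reg v ht n).compl
  filter_upwards [measure_eq_zero_iff_ae_notMem.1
    (law_shift_null v μ m hD (null_no_reg v μ ht h))] with t ht' hs
  by_contra hcon
  exact ht' ⟨hs.2, fun n hn hr => hcon ⟨n, hn, hr⟩⟩

omit [IsProbabilityMeasure μ] in
/-- A property of almost every path, on the conditioned law. -/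
theorem ae_upLaw {q : (ℕ → Fin k) → Prop}
    (hq : ∀ᵐ t ∂law v μ, t ∈ StayUp v ht → q t) : ∀ᵐ t ∂upLaw v μ ht, q t :=
  Measure.ae_smul_measure ((ae_restrict_iff' (meas_StayUp v ht)).2 hq) _

theorem isProb_upLaw (h : law v μ (StayUp v ht) ≠ 0) : IsProbabilityMeasure (upLaw v μ ht) :=
  ⟨by rw [upLaw, Measure.smul_apply, Measure.restrict_apply_univ, smul_eq_mul,
    ENNReal.inv_mul_cancel h (measure_ne_top _ _)]⟩

omit [IsProbabilityMeasure μ] in
theorem upLaw_apply {A : Set (ℕ → Fin k)} (hA : MeasurableSet A) :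
    upLaw v μ ht A = (law v μ (StayUp v ht))⁻¹ * law v μ (StayUp v ht ∩ A) := by
  rw [upLaw, Measure.smul_apply, Measure.restrict_apply hA, Set.inter_comm, smul_eq_mul]

/-! ### The renewal identity -/

/-- An event of the first `n` steps inside a record is independent of a non backtracking future. -/
theorem law_renew (n : ℕ) {E : Set (ℕ → Fin k)}
    (hE : ∀ t t' : ℕ → Fin k, (∀ i < n, t i = t' i) → t ∈ E → t' ∈ E)
    (hrec : ∀ t ∈ E, Rec v ht n t) {B : Set (ℕ → Fin k)} (hB : MeasurableSet B)
    (hBD : B ⊆ stay v ht) :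
    law v μ (E ∩ shift n ⁻¹' B) = law v μ E * law v μ B := by
  classical
  have h1 := decompose v μ n hE B hB
  have h2 := decompose v μ n hE Set.univ .univ
  simp only [Set.mem_univ, Set.ofPred_true, Set.inter_univ, and_true] at h2
  show law v μ (E ∩ {t | (fun i => t (n + i)) ∈ B}) = _
  rw [h1, h2, sum_mul]
  refine sum_congr rfl fun w _ => ?_
  split_ifs with hw
  · exact law_record v μ ht (hrec _ hw) hB hBD
  · rw [zero_mul]

/-- The first block ends at time `n` and lies in `T`, read from the first `n` steps. -/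
def Fst (n : ℕ) (T : Set (Blk k)) : Set (ℕ → Fin k) :=
  {t | 0 < n ∧ Rec v ht n t ∧ (∀ j ≤ n, 0 ≤ ht (pos v t j)) ∧
    (∀ m, 0 < m → m < n → Rec v ht m t →
      ∃ q, m ≤ q ∧ q ≤ n ∧ ht (pos v t q) < ht (pos v t m)) ∧ pre n t ∈ T}

theorem Fst_congr (n : ℕ) (T : Set (Blk k)) : ∀ t t' : ℕ → Fin k, (∀ i < n, t i = t' i) →
    t ∈ Fst v ht n T → t' ∈ Fst v ht n T := by
  rintro t t' h ⟨h0, h1, h2, h3, h4⟩
  refine ⟨h0, fun j hj => ?_, fun j hj => ?_, fun m hm hmn hr => ?_, ?_⟩
  · rw [← pos_congr v h hj.le, ← pos_congr v h le_rfl]; exact h1 j hj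
  · rw [← pos_congr v h hj]; exact h2 j hj
  · obtain ⟨q, q1, q2, q3⟩ := h3 m hm hmn fun j hj => by
      rw [pos_congr v h (hj.trans hmn).le, pos_congr v h hmn.le]; exact hr j hj
    exact ⟨q, q1, q2, by rwa [← pos_congr v h q2, ← pos_congr v h hmn.le]⟩
  · have e : pre n t' = pre n t :=
      congrArg List.ofFn (funext fun j : Fin n => (h j j.2).symm)
    rwa [e]

theorem Fst_iff (n : ℕ) (T : Set (Blk k)) (t : ℕ → Fin k) :
    t ∈ Fst v ht n T ∧ shift n t ∈ StayUp v ht ↔
      t ∈ StayUp v ht ∧ 0 < n ∧ Reg v ht n t ∧ next v ht t = n ∧ blk0 v ht t ∈ T := by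
  constructor
  · rintro ⟨⟨h0, h1, h2, h3, h4⟩, hs, hu⟩
    have hreg : Reg v ht n t := ⟨h1, hs⟩
    have hnext : next v ht t = n := by
      refine next_eq v ht h0 hreg fun m hm hmn hr => ?_
      obtain ⟨q, q1, -, q3⟩ := h3 m hm hmn hr.1
      obtain ⟨r, rfl⟩ := Nat.exists_eq_add_of_le q1
      have hr2 : 0 ≤ ht (pos v (shift m t) r) := hr.2 r
      rw [height_add] at q3
      linarith
    refine ⟨⟨fun m => ?_, (up_shift_iff v ht t n).1 hu⟩, h0, hreg, hnext, ?_⟩
    · rcases le_or_gt m n with h | h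
      · exact h2 m h
      · obtain ⟨r, rfl⟩ := Nat.exists_eq_add_of_le h.le
        rw [height_add]
        exact add_nonneg (h2 n le_rfl) (hs r)
    · subst hnext
      exact h4
  · rintro ⟨⟨hs, hu⟩, h0, hreg, hnext, hT⟩
    refine ⟨⟨h0, hreg.1, fun j _ => hs j, fun m hm hmn hr => ?_, ?_⟩,
      hreg.2, (up_shift_iff v ht t n).2 hu⟩
    · have hmin := (next_spec v ht ⟨n, h0, hreg⟩).2.2 m hm (hnext ▸ hmn)
      by_contra hcon
      push Not at hcon
      refine hmin ⟨hr, fun r => ?_⟩
      rcases le_or_gt (m + r) n with h | h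
      · have := hcon (m + r) (Nat.le_add_right _ _) h
        rw [height_add] at this
        linarith
      · obtain ⟨s, hs'⟩ := Nat.exists_eq_add_of_le h.le
        have h1 := hcon n hmn.le le_rfl
        have h2 : 0 ≤ ht (pos v (shift n t) s) := hreg.2 s
        have h3 := height_add v ht t m r
        rw [hs', height_add] at h3
        linarith
    · subst hnext
      exact hT

/-- Splitting the first block off. -/
theorem law_split (h : law v μ (StayUp v ht) ≠ 0) (T : Set (Blk k)) {A : Set (ℕ → Fin k)}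
    (hA : MeasurableSet A) :
    law v μ (StayUp v ht ∩ {t | blk0 v ht t ∈ T ∧ shift (next v ht t) t ∈ A}) =
      (∑' n, law v μ (Fst v ht n T)) * law v μ (StayUp v ht ∩ A) := by
  have hm : ∀ n, MeasurableSet (Fst v ht n T) := fun n =>
    measurableSet_of_prefix n (Fst_congr v ht n T)
  have hSA := (meas_StayUp v ht).inter hA
  have hdisj : Pairwise (Function.onFun Disjoint
      fun n => Fst v ht n T ∩ shift n ⁻¹' (StayUp v ht ∩ A)) := fun a b hab => by
    refine Set.disjoint_left.2 fun t ha hb => hab ?_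
    rw [← ((Fst_iff v ht a T t).1 ⟨ha.1, ha.2.1⟩).2.2.2.1,
      ← ((Fst_iff v ht b T t).1 ⟨hb.1, hb.2.1⟩).2.2.2.1]
  calc law v μ (StayUp v ht ∩ {t | blk0 v ht t ∈ T ∧ shift (next v ht t) t ∈ A})
      = law v μ (⋃ n, Fst v ht n T ∩ shift n ⁻¹' (StayUp v ht ∩ A)) := by
        refine measure_congr ?_
        filter_upwards [ae_reg_exists v μ ht h] with t hex
        refine propext ⟨?_, ?_⟩
        · rintro ⟨hs, hT, hA'⟩
          obtain ⟨h1, h2, -⟩ := next_spec v ht
            (t := t) (by simpa [shift_zero] using hex 0 (by rwa [shift_zero]))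
          obtain ⟨h3, h4⟩ := (Fst_iff v ht _ T t).2 ⟨hs, h1, h2, rfl, hT⟩
          exact Set.mem_iUnion.2 ⟨_, h3, h4, hA'⟩
        · intro hU
          obtain ⟨n, h1, h2, h3⟩ := Set.mem_iUnion.1 hU
          obtain ⟨hs, -, -, hnext, hT⟩ := (Fst_iff v ht n T t).1 ⟨h1, h2⟩
          exact ⟨hs, hT, hnext.symm ▸ h3⟩
    _ = ∑' n, law v μ (Fst v ht n T) * law v μ (StayUp v ht ∩ A) := by
        rw [measure_iUnion hdisj fun n => (hm n).inter (meas_shift n hSA)]
        exact tsum_congr fun n => law_renew v μ ht n (Fst_congr v ht n T) (fun t ht' => ht'.2.1)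
          hSA fun t ht' => ht'.1.1
    _ = _ := ENNReal.tsum_mul_right

/-- The first block is independent of the shifted path, which has the same law. -/
theorem upLaw_split (h : law v μ (StayUp v ht) ≠ 0) (T : Set (Blk k)) {A : Set (ℕ → Fin k)}
    (hA : MeasurableSet A) :
    upLaw v μ ht {t | blk0 v ht t ∈ T ∧ shift (next v ht t) t ∈ A} =
      (upLaw v μ ht).map (blk0 v ht) T * upLaw v μ ht A := by
  have hp : law v μ (StayUp v ht) ≠ ∞ := measure_ne_top _ _
  have hT : MeasurableSet (blk0 v ht ⁻¹' T) := meas_blk0 v ht trivial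
  have e := law_split v μ ht h T MeasurableSet.univ
  simp only [Set.mem_univ, and_true, Set.inter_univ] at e
  have hS : MeasurableSet {t | blk0 v ht t ∈ T ∧ shift (next v ht t) t ∈ A} :=
    hT.inter (meas_shift_at (meas_next v ht) hA)
  rw [upLaw_apply v μ ht hS, Measure.map_apply (meas_blk0 v ht) trivial, upLaw_apply v μ ht hT,
    upLaw_apply v μ ht hA, law_split v μ ht h T hA]
  change _ = (law v μ (StayUp v ht))⁻¹ * law v μ (StayUp v ht ∩ {t | blk0 v ht t ∈ T}) * _
  rw [e, mul_comm (∑' n, law v μ (Fst v ht n T)) (law v μ (StayUp v ht)), ← mul_assoc _ (law v μ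
    (StayUp v ht)), ENNReal.inv_mul_cancel h hp, one_mul]
  ring

theorem meas_block (i : ℕ) : Measurable (block v ht i) :=
  (meas_blk0 v ht).comp (meas_shift_at (meas_regTime v ht i))

theorem upLaw_blocks (h : law v μ (StayUp v ht) ≠ 0) (m : ℕ) :
    ∀ T : ℕ → Set (Blk k), upLaw v μ ht {t | ∀ i < m, block v ht i t ∈ T i} =
      ∏ i ∈ range m, (upLaw v μ ht).map (blk0 v ht) (T i) := by
  induction m with
  | zero =>
    intro T
    have := isProb_upLaw v μ ht h
    simp
  | succ m ih =>
    intro T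
    have hA : MeasurableSet {t | ∀ i < m, block v ht i t ∈ T (i + 1)} := by
      simp only [Set.ofPred_forall]
      exact .iInter fun i => .iInter fun _ => meas_block v ht i trivial
    have e : {t | ∀ i < m + 1, block v ht i t ∈ T i} = {t | blk0 v ht t ∈ T 0 ∧
        shift (next v ht t) t ∈ {t | ∀ i < m, block v ht i t ∈ T (i + 1)}} := by
      ext t
      simp only [Set.mem_ofPred_eq, Nat.forall_lt_succ_left, block_zero, block_succ]
    rw [e, upLaw_split v μ ht h _ hA, ih fun i => T (i + 1), prod_range_succ', mul_comm]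

theorem map_block (h : law v μ (StayUp v ht) ≠ 0) :
    (upLaw v μ ht).map (fun t i => block v ht i t) =
      Measure.infinitePi fun _ : ℕ => (upLaw v μ ht).map (blk0 v ht) := by
  classical
  have := isProb_upLaw v μ ht h
  have := Measure.isProbabilityMeasure_map (μ := upLaw v μ ht) (meas_blk0 v ht).aemeasurable
  refine Measure.eq_infinitePi _ fun S T hT => ?_
  rw [Measure.map_apply (measurable_pi_lambda _ fun i => meas_block v ht i)
    (.pi S.countable_toSet fun i _ => hT i)]
  have e : (fun t i => block v ht i t) ⁻¹' Set.pi S T =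
      {t | ∀ i < S.sup id + 1, block v ht i t ∈ if i ∈ S then T i else Set.univ} := by
    ext t
    simp only [Set.mem_preimage, Set.mem_pi, mem_coe, Set.mem_ofPred_eq]
    refine ⟨fun h i _ => ?_, fun h i hi => ?_⟩
    · split_ifs with hi
      exacts [h i hi, Set.mem_univ _]
    · simpa [hi] using h i (Nat.lt_succ_of_le (le_sup (f := id) hi))
  rw [e, upLaw_blocks v μ ht h]
  refine (prod_subset ?_ ?_).symm.trans (prod_congr rfl fun i hi => by rw [if_pos hi])
  · exact fun i hi => mem_range.2 (Nat.lt_succ_of_le (le_sup (f := id) hi))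
  · intro i _ hi
    rw [if_neg hi, measure_univ]

/-! ### Regular paths -/

theorem path_regular {t : ℕ → Fin k} (hst : t ∈ StayUp v ht)
    (hex : ∀ m, shift m t ∈ StayUp v ht → ∃ n, 0 < n ∧ Reg v ht n (shift m t)) (i : ℕ) :
    shift (regTime v ht i t) t ∈ StayUp v ht ∧ Rec v ht (regTime v ht i t) t := by
  induction i with
  | zero =>
    simp only [regTime, shift_zero]
    exact ⟨hst, fun j hj => absurd hj (Nat.not_lt_zero j)⟩
  | succ i ih =>
    obtain ⟨h1, h2, -⟩ := next_spec v ht (hex _ ih.1)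
    set τ := regTime v ht i t
    set n := next v ht (shift τ t)
    refine ⟨⟨?_, (up_shift_iff v ht t _).2 hst.2⟩, fun j hj => ?_⟩
    · show shift (τ + n) t ∈ stay v ht
      rw [← shift_shift]
      exact h2.2
    · show ht (pos v t j) < ht (pos v t (τ + n))
      change j < τ + n at hj
      rw [height_add v ht t τ n]
      have h0 := h2.1 0 h1
      rw [height_zero] at h0
      rcases lt_or_ge j τ with h | h
      · linarith [ih.2 j h]
      · obtain ⟨q, rfl⟩ := Nat.exists_eq_add_of_le h
        rw [height_add v ht t τ q]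
        linarith [h2.1 q (by omega)]

omit [NeZero k] in
theorem bpos_ofFn (u : ℕ → Fin k) (n j : ℕ) (hj : j ≤ n) :
    bpos v (pre n u) j = pos v u j := by
  have e : List.take j (List.ofFn fun q : Fin n => u q) = List.ofFn fun q : Fin j => u q :=
    (Fin.ofFn_take_eq_take_ofFn hj _).symm
  unfold bpos pre
  rw [e, List.map_ofFn, List.sum_ofFn]
  exact Fin.sum_univ_eq_sum_range (fun q => v (u q)) j

theorem bpos_block (i : ℕ) (t : ℕ → Fin k) {j : ℕ} (hj : j ≤ next v ht (shift (regTime v ht i t) t)) :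
    bpos v (block v ht i t) j =
      pos v t (regTime v ht i t + j) - pos v t (regTime v ht i t) := by
  rw [pos_add, add_sub_cancel_left, block_eq]
  exact bpos_ofFn v _ _ j hj

omit [NeZero k] in
theorem blen_block (i : ℕ) (t : ℕ → Fin k) :
    blen (block v ht i t) = next v ht (shift (regTime v ht i t) t) :=
  List.length_ofFn

theorem ae_path (h : law v μ (StayUp v ht) ≠ 0) :
    ∀ᵐ t ∂upLaw v μ ht, t ∈ StayUp v ht ∧
      ∀ m, shift m t ∈ StayUp v ht → ∃ n, 0 < n ∧ Reg v ht n (shift m t) :=
  ae_upLaw v μ ht <| (ae_reg_exists v μ ht h).mono fun _ h1 h2 => ⟨h2, h1⟩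

/-- Height at the `j`-th regeneration. -/
noncomputable def lvl (j : ℕ) (t : ℕ → Fin k) : ℝ := ht (pos v t (regTime v ht j t))

theorem meas_lvl (j : ℕ) : Measurable (lvl v ht j : (ℕ → Fin k) → ℝ) := by
  have h : Measurable fun x : (ℕ → Fin k) × ℕ => ht (pos v x.1 x.2) :=
    measurable_from_prod_countable_left fun n => measurable_height v ht n
  exact h.comp (measurable_id.prodMk (meas_regTime v ht j))

theorem lvl_eq_sum (j : ℕ) (t : ℕ → Fin k) :
    lvl v ht j t = ∑ i ∈ range j, bH v ht (block v ht i t) := by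
  induction j with
  | zero => simp [lvl, regTime, pos]
  | succ j ih =>
    rw [sum_range_succ, ← ih]
    simp only [bH, lvl, blen_block]
    rw [bpos_block v ht j t le_rfl, map_sub]
    simp only [regTime]
    ring

theorem reg_is_regTime {t : ℕ → Fin k} (hst : t ∈ StayUp v ht)
    (hex : ∀ m, shift m t ∈ StayUp v ht → ∃ n, 0 < n ∧ Reg v ht n (shift m t)) {n : ℕ}
    (hn : Reg v ht n t) : ∃ j, regTime v ht j t = n := by
  classical
  have hlt : ∀ i, regTime v ht i t < regTime v ht (i + 1) t := fun i =>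
    Nat.lt_add_of_pos_right (next_spec v ht (hex _ (path_regular v ht hst hex i).1)).1
  have hj : ∃ j, n < regTime v ht j t :=
    ⟨n + 1, lt_of_lt_of_le n.lt_succ_self (strictMono_nat_of_lt_succ hlt).le_apply⟩
  obtain ⟨j, hj1, hj2⟩ : ∃ j, regTime v ht j t ≤ n ∧ n < regTime v ht (j + 1) t := by
    rcases hf : Nat.find hj with _ | j
    · have := Nat.find_spec hj
      rw [hf] at this
      simp [regTime] at this
    · refine ⟨j, not_lt.1 (Nat.find_min hj (by omega)), ?_⟩
      have := Nat.find_spec hj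
      rwa [hf] at this
  refine ⟨j, ?_⟩
  by_contra hne
  obtain ⟨q, rfl⟩ := Nat.exists_eq_add_of_le hj1
  simp only [regTime] at hj2
  refine (next_spec v ht (hex _ (path_regular v ht hst hex j).1)).2.2 q (by omega) (by omega) ?_
  refine ⟨fun r hr => ?_, by rw [shift_shift]; exact hn.2⟩
  have := hn.1 (regTime v ht j t + r) (by omega)
  rw [height_add, height_add] at this
  linarith

/-! ### Windows -/

/-- Any window of heights above zero as wide as a step holds a regeneration with probability at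
least the probability of `StayUp`. -/
theorem window (h : law v μ (StayUp v ht) ≠ 0) {a L : ℝ} (hstep : ∀ i, ht (v i) ≤ a) (hL : 0 ≤ L) :
    law v μ (StayUp v ht) ≤ upLaw v μ ht (⋃ j, lvl v ht j ⁻¹' Set.Ioc L (L + a)) := by
  set p := law v μ (StayUp v ht)
  set G : ℕ → Set (ℕ → Fin k) := fun n =>
    {t | (∀ j ≤ n, 0 ≤ ht (pos v t j)) ∧ (∀ j < n, ht (pos v t j) ≤ L) ∧ L < ht (pos v t n)}
  have hG : ∀ n, ∀ t t' : ℕ → Fin k, (∀ i < n, t i = t' i) → t ∈ G n → t' ∈ G n := by
    rintro n t t' h ⟨h1, h2, h3⟩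
    refine ⟨fun j hj => ?_, fun j hj => ?_, ?_⟩
    · rw [← pos_congr v h hj]; exact h1 j hj
    · rw [← pos_congr v h hj.le]; exact h2 j hj
    · rw [← pos_congr v h le_rfl]; exact h3
  have hGrec : ∀ n, ∀ t ∈ G n, Rec v ht n t := fun n t ht' j hj =>
    (ht'.2.1 j hj).trans_lt ht'.2.2
  have hGm : ∀ n, MeasurableSet (G n) := fun n => measurableSet_of_prefix n (hG n)
  have hGd : Pairwise (Function.onFun Disjoint G) := fun a b hab => by
    refine Set.disjoint_left.2 fun t ha hb => ?_
    rcases lt_or_gt_of_ne hab with h | h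
    · exact absurd (hb.2.1 a h) (not_le.2 ha.2.2)
    · exact absurd (ha.2.1 b h) (not_le.2 hb.2.2)
  have hcov : StayUp v ht ⊆ ⋃ n, G n := by
    classical
    rintro t ⟨hs, hu⟩
    have hex : ∃ n, L < ht (pos v t n) := ((tendsto_atTop.1 hu (L + 1)).exists).imp
      fun n hn => lt_of_lt_of_le (lt_add_one L) hn
    exact Set.mem_iUnion.2 ⟨Nat.find hex, fun j _ => hs j,
      fun j hj => not_lt.1 (Nat.find_min hex hj), Nat.find_spec hex⟩
  set W := ⋃ j, lvl v ht j ⁻¹' Set.Ioc L (L + a)
  have hWm : MeasurableSet W := .iUnion fun j => meas_lvl v ht j measurableSet_Ioc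
  have key : p * p ≤ law v μ (StayUp v ht ∩ W) := by
    calc p * p ≤ law v μ (⋃ n, G n) * p := mul_le_mul_left (measure_mono hcov) p
      _ = law v μ (⋃ n, G n ∩ shift n ⁻¹' StayUp v ht) := by
        rw [measure_iUnion hGd hGm, measure_iUnion
          (fun a b hab => (hGd hab).mono Set.inter_subset_left Set.inter_subset_left)
          (fun n => (hGm n).inter (meas_shift n (meas_StayUp v ht))), ← ENNReal.tsum_mul_right]
        exact tsum_congr fun n => (law_renew v μ ht n (hG n) (hGrec n) (meas_StayUp v ht)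
          fun t ht' => ht'.1).symm
      _ ≤ law v μ (StayUp v ht ∩ W) := by
        refine measure_mono_ae ?_
        filter_upwards [ae_reg_exists v μ ht h] with t hex
        intro hU
        obtain ⟨n, ⟨h1, h2, h3⟩, h4, h5⟩ := Set.mem_iUnion.1 hU
        have hst : t ∈ StayUp v ht := by
          refine ⟨fun m => ?_, (up_shift_iff v ht t n).1 h5⟩
          rcases le_or_gt m n with h | h
          · exact h1 m h
          · obtain ⟨r, rfl⟩ := Nat.exists_eq_add_of_le h.le
            rw [height_add]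
            exact add_nonneg (h1 n le_rfl) (h4 r)
        obtain ⟨j, hj⟩ := reg_is_regTime v ht hst hex ⟨hGrec n t ⟨h1, h2, h3⟩, h4⟩
        refine ⟨hst, Set.mem_iUnion.2 ⟨j, ?_, ?_⟩⟩
        · simpa [lvl, hj] using h3
        · show lvl v ht j t ≤ L + a
          simp only [lvl, hj]
          rcases n with _ | n
          · rw [height_zero] at h3 ⊢
            linarith
          · rw [pos, sum_range_succ, ← pos, map_add]
            linarith [h2 n (Nat.lt_succ_self n), hstep (t n)]
  rw [upLaw_apply v μ ht hWm]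
  calc p = p⁻¹ * (p * p) := by
        rw [← mul_assoc, ENNReal.inv_mul_cancel h (measure_ne_top _ _), one_mul]
    _ ≤ _ := mul_le_mul_right key _

theorem bH_pos (h : law v μ (StayUp v ht) ≠ 0) :
    ∀ᵐ b ∂(upLaw v μ ht).map (blk0 v ht), 0 < bH v ht b := by
  refine (ae_map_iff (meas_blk0 v ht).aemeasurable trivial).2 ?_
  filter_upwards [ae_path v μ ht h] with t ht'
  obtain ⟨h1, h2, -⟩ := next_spec v ht (t := t) (by
    simpa [shift_zero] using ht'.2 0 (by rw [shift_zero]; exact ht'.1))
  have h0 := h2.1 0 h1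
  rw [height_zero] at h0
  have e : bH v ht (blk0 v ht t) = ht (pos v t (next v ht t)) := by
    have := lvl_eq_sum v ht 1 t
    simpa [lvl, regTime, shift_zero, block_zero] using this.symm
  rwa [e]

/-- Truncated Wald bound on the number of regenerations below `R`. -/
theorem wald (h : law v μ (StayUp v ht) ≠ 0) (R : ℝ) (hR : 0 < R) (j : ℕ) :
    upLaw v μ ht (lvl v ht j ⁻¹' Set.Iic R) ≤ ENNReal.ofReal (Real.exp 1) *
      (∫⁻ b, ENNReal.ofReal (Real.exp (-(bH v ht b / R))) ∂(upLaw v μ ht).map (blk0 v ht)) ^ j := by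
  have := isProb_upLaw v μ ht h
  set ν := (upLaw v μ ht).map (blk0 v ht) with hν
  have : IsProbabilityMeasure ν :=
    Measure.isProbabilityMeasure_map (meas_blk0 v ht).aemeasurable
  set g : Blk k → ℝ≥0∞ := fun b => ENNReal.ofReal (Real.exp (-(bH v ht b / R)))
  have hg : Measurable g := fun _ _ => trivial
  have e : ∫⁻ t, ∏ i ∈ range j, g (block v ht i t) ∂upLaw v μ ht = (∫⁻ b, g b ∂ν) ^ j := by
    have hind := ProbabilityTheory.iIndepFun_infinitePi (P := fun _ : ℕ => ν)
      (X := fun _ : ℕ => g) fun _ => hg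
    have h1 := ProbabilityTheory.lintegral_prod_eq_prod_lintegral_of_indepFun (range j)
      (fun i (ω : ℕ → Blk k) => g (ω i)) hind fun i => hg.comp (measurable_pi_apply i)
    have h2 : ∀ i, ∫⁻ ω : ℕ → Blk k, g (ω i) ∂Measure.infinitePi (fun _ : ℕ => ν) =
        ∫⁻ b, g b ∂ν := fun i => by
      conv_rhs => rw [← Measure.infinitePi_map_eval (fun _ : ℕ => ν) i]
      exact (lintegral_map hg (measurable_pi_apply i)).symm
    simp only [h2, prod_const, card_range] at h1
    rw [← h1, ← map_block v μ ht h]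
    exact (lintegral_map (f := fun ω : ℕ → Blk k => ∏ i ∈ range j, g (ω i))
      (Finset.measurable_prod _ fun i _ => hg.comp (measurable_pi_apply i))
      (measurable_pi_lambda _ fun i => meas_block v ht i)).symm
  rw [← e, ← lintegral_const_mul' _ _ ENNReal.ofReal_ne_top,
    ← lintegral_indicator_one (meas_lvl v ht j measurableSet_Iic)]
  refine lintegral_mono fun t => Set.indicator_apply_le' (fun ht' => ?_) fun _ => zero_le
  simp only [g]
  rw [← ENNReal.ofReal_prod_of_nonneg fun i _ => (Real.exp_pos _).le,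
    ← ENNReal.ofReal_mul (Real.exp_pos _).le, ← Real.exp_sum, ← Real.exp_add,
    sum_neg_distrib, ← Finset.sum_div, ← lvl_eq_sum, Pi.one_apply, ENNReal.one_le_ofReal,
    Real.one_le_exp_iff]
  have : lvl v ht j t / R ≤ 1 := (div_le_one hR).2 ht'
  linarith

omit [NeZero k] in
theorem sub_exp_bound {x K : ℝ} (hx : 0 ≤ x) (hK : 1 ≤ K) :
    min x K ≤ 2 * (K * (1 - Real.exp (-(x / K)))) := by
  have hK0 : 0 < K := by linarith
  set u := x / K
  have hu : 0 ≤ u := div_nonneg hx hK0.le
  have hxu : x = K * u := by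
    simp only [u]
    field_simp
  have h1 : Real.exp (-u) ≤ 1 / (1 + u) := by
    rw [Real.exp_neg, inv_eq_one_div]
    exact one_div_le_one_div_of_le (by linarith) (by linarith [Real.add_one_le_exp u])
  have h2 : min u 1 ≤ 2 * (1 - 1 / (1 + u)) := by
    have e : 1 - 1 / (1 + u) = u / (1 + u) := by field_simp; ring
    rw [e, mul_div, le_div_iff₀ (by linarith)]
    rcases le_total u 1 with h | h
    · rw [min_eq_left h]; nlinarith
    · rw [min_eq_right h]; linarith
  calc min x K = K * min u 1 := by rw [mul_min_of_nonneg _ _ hK0.le, ← hxu, mul_one]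
    _ ≤ K * (2 * (1 - Real.exp (-u))) := by gcongr; linarith
    _ = _ := by ring

/-- The block height has finite mean. -/
theorem lintegral_bH (h : law v μ (StayUp v ht) ≠ 0) :
    ∫⁻ b, ENNReal.ofReal (bH v ht b) ∂(upLaw v μ ht).map (blk0 v ht) ≠ ∞ := by
  have := isProb_upLaw v μ ht h
  set p := law v μ (StayUp v ht)
  have hp : p ≠ ∞ := measure_ne_top _ _
  set ν := (upLaw v μ ht).map (blk0 v ht) with hν
  have : IsProbabilityMeasure ν :=
    Measure.isProbabilityMeasure_map (meas_blk0 v ht).aemeasurable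
  set a : ℝ := 1 + ∑ i, |ht (v i)|
  have ha : 0 < a := by positivity
  have hstep : ∀ i, ht (v i) ≤ a := fun i => by
    have := single_le_sum (f := fun i => |ht (v i)|) (fun i _ => abs_nonneg _) (mem_univ i)
    have := le_abs_self (ht (v i))
    show ht (v i) ≤ 1 + ∑ i, |ht (v i)|
    linarith
  have hm : ∀ g : Blk k → ℝ≥0∞, Measurable g := fun g _ _ => trivial
  -- the bound for each number of windows
  have hK : ∀ K : ℕ, ∫⁻ b, ENNReal.ofReal (min (bH v ht b) (a * (K + 1))) ∂ν ≤
      ENNReal.ofReal (2 * a * Real.exp 1) / p := by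
    intro K
    set R : ℝ := a * (K + 1)
    have hR : 0 < R := by positivity
    set φ := ∫⁻ b, ENNReal.ofReal (Real.exp (-(bH v ht b / R))) ∂ν with hφ
    set ψ := ∫⁻ b, ENNReal.ofReal (1 - Real.exp (-(bH v ht b / R))) ∂ν with hψ
    have hsum : φ + ψ = 1 := by
      rw [hφ, hψ, ← lintegral_add_left (hm _)]
      calc _ = ∫⁻ _, (1 : ℝ≥0∞) ∂ν := lintegral_congr_ae <| by
            filter_upwards [bH_pos v μ ht h] with b hb
            rw [← ENNReal.ofReal_add (Real.exp_pos _).le, add_sub_cancel, ENNReal.ofReal_one]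
            have : Real.exp (-(bH v ht b / R)) ≤ 1 :=
              Real.exp_le_one_iff.2 (by linarith [div_nonneg hb.le hR.le])
            linarith
        _ = 1 := by simp
    have hφ1 : φ ≠ ∞ := ne_top_of_le_ne_top ENNReal.one_ne_top (hsum ▸ le_self_add)
    have hψ' : 1 - φ = ψ := by rw [← hsum, ENNReal.add_sub_cancel_left hφ1]
    have hwin : (K + 1 : ℕ) * p ≤ ENNReal.ofReal (Real.exp 1) * ψ⁻¹ := by
      have hI : Set.PairwiseDisjoint (↑(range (K + 1)) : Set ℕ)
          fun q : ℕ => Set.Ioc (q * a) ((q + 1) * a) := fun q _ r _ hqr => by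
        refine Set.disjoint_left.2 fun x hx hy => hqr ?_
        have h1 : (q : ℝ) < r + 1 := lt_of_mul_lt_mul_right (hx.1.trans_le hy.2) ha.le
        have h2 : (r : ℝ) < q + 1 := lt_of_mul_lt_mul_right (hy.1.trans_le hx.2) ha.le
        have h1 : q < r + 1 := by exact_mod_cast h1
        have h2 : r < q + 1 := by exact_mod_cast h2
        omega
      calc ((K + 1 : ℕ) : ℝ≥0∞) * p = ∑ q ∈ range (K + 1), p := by simp
        _ ≤ ∑ q ∈ range (K + 1),
            upLaw v μ ht (⋃ j, lvl v ht j ⁻¹' Set.Ioc (q * a) (q * a + a)) :=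
          sum_le_sum fun q _ => window v μ ht h hstep (by positivity)
        _ ≤ ∑ q ∈ range (K + 1), ∑' j,
            upLaw v μ ht (lvl v ht j ⁻¹' Set.Ioc (q * a) ((q + 1) * a)) :=
          sum_le_sum fun q _ => by rw [add_one_mul]; exact measure_iUnion_le _
        _ = ∑' j, ∑ q ∈ range (K + 1),
            upLaw v μ ht (lvl v ht j ⁻¹' Set.Ioc (q * a) ((q + 1) * a)) :=
          (Summable.tsum_finsetSum fun _ _ => ENNReal.summable).symm
        _ ≤ ∑' j, ENNReal.ofReal (Real.exp 1) * φ ^ j := by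
          refine ENNReal.tsum_le_tsum fun j => le_trans ?_ (wald v μ ht h R hR j)
          rw [← measure_biUnion_finset (fun q hq r hr hqr => (hI hq hr hqr).preimage _)
            fun q _ => meas_lvl v ht j measurableSet_Ioc]
          refine measure_mono (Set.iUnion₂_subset fun q hq t ht' => ?_)
          have hqK : (q : ℝ) ≤ K := by exact_mod_cast Nat.lt_succ_iff.1 (mem_range.1 hq)
          have := ht'.2
          show lvl v ht j t ≤ a * (K + 1)
          nlinarith
        _ = _ := by rw [ENNReal.tsum_mul_left, ENNReal.tsum_geometric, hψ']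
    have hbound : ((K + 1 : ℕ) : ℝ≥0∞) * ψ ≤ ENNReal.ofReal (Real.exp 1) / p := by
      rw [ENNReal.le_div_iff_mul_le (Or.inl h) (Or.inl hp), mul_right_comm]
      calc _ ≤ ENNReal.ofReal (Real.exp 1) * ψ⁻¹ * ψ := mul_le_mul_left hwin ψ
        _ ≤ ENNReal.ofReal (Real.exp 1) * 1 := by
            rw [mul_assoc]; exact mul_le_mul_right (ENNReal.inv_mul_le_one ψ) _
        _ = _ := mul_one _
    calc ∫⁻ b, ENNReal.ofReal (min (bH v ht b) R) ∂ν
        ≤ ∫⁻ b, ENNReal.ofReal (2 * a) * (((K + 1 : ℕ) : ℝ≥0∞) *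
            ENNReal.ofReal (1 - Real.exp (-(bH v ht b / R)))) ∂ν := by
          refine lintegral_mono_ae ?_
          filter_upwards [bH_pos v μ ht h] with b hb
          rw [← ENNReal.ofReal_natCast, ← ENNReal.ofReal_mul (by positivity),
            ← ENNReal.ofReal_mul (by positivity)]
          refine ENNReal.ofReal_le_ofReal ?_
          have hb' := sub_exp_bound (x := bH v ht b / a) (K := (K : ℝ) + 1)
            (div_nonneg hb.le ha.le) (by simp)
          have e1 : bH v ht b / a / ((K : ℝ) + 1) = bH v ht b / R := div_div _ _ _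
          rw [e1] at hb'
          have e2 : a * min (bH v ht b / a) ((K : ℝ) + 1) = min (bH v ht b) R := by
            rw [mul_min_of_nonneg _ _ ha.le, mul_div_cancel₀ _ ha.ne']
          rw [← e2]
          push_cast
          nlinarith [mul_le_mul_of_nonneg_left hb' ha.le]
      _ = ENNReal.ofReal (2 * a) * (((K + 1 : ℕ) : ℝ≥0∞) * ψ) := by
          rw [lintegral_const_mul _ (hm _), lintegral_const_mul _ (hm _)]
      _ ≤ ENNReal.ofReal (2 * a) * (ENNReal.ofReal (Real.exp 1) / p) := mul_le_mul_right hbound _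
      _ = _ := by rw [← mul_div_assoc, ← ENNReal.ofReal_mul (by positivity)]
  have hsup : ∀ b, ENNReal.ofReal (bH v ht b) =
      ⨆ K : ℕ, ENNReal.ofReal (min (bH v ht b) (a * (K + 1))) := by
    intro b
    refine le_antisymm ?_ (iSup_le fun K => ENNReal.ofReal_le_ofReal (min_le_left _ _))
    obtain ⟨K, hK⟩ := exists_nat_ge (bH v ht b / a)
    refine le_iSup_of_le K (le_of_eq ?_)
    rw [min_eq_left]
    rw [div_le_iff₀ ha] at hK
    nlinarith
  refine ne_top_of_le_ne_top (b := ENNReal.ofReal (2 * a * Real.exp 1) / p)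
    (ENNReal.div_ne_top ENNReal.ofReal_ne_top h) ?_
  simp only [hsup]
  rw [lintegral_iSup (fun K => hm _) ?_]
  · exact iSup_le hK
  · intro K L hKL b
    have : (K : ℝ) ≤ L := by exact_mod_cast hKL
    exact ENNReal.ofReal_le_ofReal (min_le_min_left _ (by nlinarith))

end Blocks

open Blocks

theorem stayUp_ne_zero (h : law v μ (up v ht) ≠ 0) : law v μ (StayUp v ht) ≠ 0 := by
  intro h0
  refine h (measure_mono_null ?_ (measure_iUnion_null fun n =>
    law_shift_null v μ n (meas_StayUp v ht) h0))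
  intro t ht'
  obtain ⟨n, hn⟩ := Tendsto.exists_forall_le (f := fun m => ht (pos v t m))
    (by rw [Nat.cofinite_eq_atTop]; exact ht')
  refine Set.mem_iUnion.2 ⟨n, fun m => ?_, (up_shift_iff v ht t n).2 ht'⟩
  have := hn (n + m)
  rw [height_add] at this
  exact le_of_add_le_add_left (a := ht (pos v t n)) (by rw [add_zero]; exact this)

theorem measurable_block (i : ℕ) : Measurable (block v ht i) := meas_block v ht i

theorem regTime_reg (h : law v μ (StayUp v ht) ≠ 0) :
    ∀ᵐ t ∂upLaw v μ ht, t ∈ StayUp v ht ∧ ∀ i,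
      regTime v ht i t < regTime v ht (i + 1) t ∧ shift (regTime v ht i t) t ∈ stay v ht ∧
      Rec v ht (regTime v ht i t) t ∧ blen (block v ht i t) =
        regTime v ht (i + 1) t - regTime v ht i t ∧
      ∀ j ≤ blen (block v ht i t), bpos v (block v ht i t) j =
        pos v t (regTime v ht i t + j) - pos v t (regTime v ht i t) := by
  filter_upwards [ae_path v μ ht h] with t ⟨hst, hex⟩
  refine ⟨hst, fun i => ?_⟩
  obtain ⟨h1, h2⟩ := path_regular v ht hst hex i
  refine ⟨Nat.lt_add_of_pos_right (next_spec v ht (hex _ h1)).1, h1.1, h2, ?_, fun j hj => ?_⟩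
  · rw [blen_block]
    simp only [regTime]
    omega
  · rw [blen_block] at hj
    exact bpos_block v ht i t hj

theorem exists_block_law (h : law v μ (StayUp v ht) ≠ 0) :
    ∃ ν : Measure (Blk k), IsProbabilityMeasure ν ∧
      (upLaw v μ ht).map (fun t i => block v ht i t) = Measure.infinitePi (fun _ : ℕ => ν) ∧
      (∀ᵐ b ∂ν, 0 < bH v ht b) ∧ Integrable (bH v ht) ν := by
  have := isProb_upLaw v μ ht h
  refine ⟨(upLaw v μ ht).map (blk0 v ht),
    Measure.isProbabilityMeasure_map (meas_blk0 v ht).aemeasurable, map_block v μ ht h,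
    bH_pos v μ ht h, (Measurable.of_discrete (f := bH v ht)).aestronglyMeasurable, ?_⟩
  rw [hasFiniteIntegral_iff_ofReal ((bH_pos v μ ht h).mono fun b hb => hb.le)]
  exact lt_top_iff_ne_top.2 (lintegral_bH v μ ht h)

end Vale.Agent.P147.Dir
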