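import Vale.Agent.P147.Cond.Main

/-!
P147: regeneration blocks and record events, definitions.
-/

open MeasureTheory Filter Finset
open scoped ENNReal

namespace Vale.Agent.P147.Dir

open Vale.Agent.P147.Cond

variable {d k : ℕ} [NeZero k] (v : Fin k → Site d) (μ : Measure (Row k)) (ht f : Site d →+ ℝ)

/-- The steps after time `n`. -/
def shift (n : ℕ) (t : ℕ → Fin k) : ℕ → Fin k := fun i => t (n + i)

/-- No backtracking and escape. -/
def StayUp : Set (ℕ → Fin k) := stay v ht ∩ up v ht

/-- Regeneration at time `n`. -/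
def Reg (n : ℕ) (t : ℕ → Fin k) : Prop := Rec v ht n t ∧ shift n t ∈ stay v ht

open Classical in
/-- The first positive regeneration time. -/
noncomputable def next (t : ℕ → Fin k) : ℕ :=
  if h : ∃ n, 0 < n ∧ Reg v ht n t then Nat.find h else 0

/-- The regeneration times. -/
noncomputable def regTime : ℕ → (ℕ → Fin k) → ℕ
  | 0, _ => 0
  | i + 1, t => regTime i t + next v ht (shift (regTime i t) t)

/-- Blocks of steps. -/
def Blk (k : ℕ) : Type := List (Fin k)

instance : MeasurableSpace (Blk k) := ⊤

/-- The block between consecutive regenerations. -/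
noncomputable def block (i : ℕ) (t : ℕ → Fin k) : Blk k :=
  List.ofFn fun j : Fin (next v ht (shift (regTime v ht i t) t)) => t (regTime v ht i t + j)

/-- Length of a block. -/
def blen (b : Blk k) : ℕ := List.length b

/-- Position inside a block after `j` steps. -/
def bpos (b : Blk k) (j : ℕ) : Site d := (List.map v (List.take j b)).sum

/-- Height gained over a block. -/
def bH (b : Blk k) : ℝ := ht (bpos v b (blen b))

/-- Change of `f` over a block. -/
def bY (b : Blk k) : ℝ := f (bpos v b (blen b))

/-- Largest deviation of `f` inside a block. -/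
noncomputable def bD (b : Blk k) : ℝ :=
  (Finset.range (blen b + 1)).sup' Finset.nonempty_range_add_one fun j => |f (bpos v b j)|

/-- The law conditioned on no backtracking and escape. -/
noncomputable def upLaw : Measure (ℕ → Fin k) :=
  (law v μ (StayUp v ht))⁻¹ • (law v μ).restrict (StayUp v ht)

/-- `f` exceeds `x` before the height leaves `[0, top]`. -/
def Gain (top x : ℝ) : Set (ℕ → Fin k) :=
  {t | ∃ n, (∀ j ≤ n, 0 ≤ ht (pos v t j) ∧ ht (pos v t j) ≤ top) ∧ x < f (pos v t n)}

/-- The cone event used after the first step `i0`. -/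
def Cone (i0 : Fin k) (top W : ℝ) : Set (ℕ → Fin k) :=
  StayUp v ht ∩ {t | ∀ m, (0 ≤ f (v i0) + f (pos v t m) ∨ top < ht (pos v t m)) ∧
    ((∀ j ≤ m, ht (pos v t j) ≤ top) → f (v i0) + f (pos v t m) ≤ W)}

end Vale.Agent.P147.Dir
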