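import Vale.Agent.P147.Dir.Assemble

/-!
P147: a deterministic asymptotic direction on every escape event.
-/

open MeasureTheory ProbabilityTheory Filter Finset
open scoped ENNReal Topology

namespace Vale.Agent.P147.Dir

open Vale.Agent.P147.Cond

variable {d k : ℕ} [NeZero k] (v : Fin k → Site d) (μ : Measure (Row k)) [IsProbabilityMeasure μ]
  (ht Y : Site d →+ ℝ)

theorem mean_tendsto {β : Type*} [MeasurableSpace β] (ν : Measure β) [IsProbabilityMeasure ν]
    {g : β → ℝ} (hg : Measurable g) (hi : Integrable g ν) :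
    ∀ᵐ s ∂Measure.infinitePi (fun _ : ℕ => ν),
      Tendsto (fun n : ℕ => (∑ i ∈ range n, g (s i)) / n) atTop (𝓝 (∫ b, g b ∂ν)) := by
  have hmp := fun i : ℕ => measurePreserving_eval_infinitePi (fun _ : ℕ => ν) i
  have hid : ∀ i, IdentDistrib (fun s : ℕ → β => g (s i)) (fun s => g (s 0))
      (Measure.infinitePi fun _ : ℕ => ν) (Measure.infinitePi fun _ : ℕ => ν) := fun i =>
    IdentDistrib.comp (f := fun s : ℕ → β => s i) (g := fun s : ℕ → β => s 0)
      ⟨(hmp i).measurable.aemeasurable, (hmp 0).measurable.aemeasurable,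
        (hmp i).map_eq.trans (hmp 0).map_eq.symm⟩ hg
  have hind : iIndepFun (fun i (s : ℕ → β) => g (s i)) (Measure.infinitePi fun _ : ℕ => ν) :=
    iIndepFun_infinitePi fun _ => hg
  have := strong_law_ae_real (fun i (s : ℕ → β) => g (s i))
    ((hmp 0).integrable_comp_of_integrable hi) (fun i j hij => hind.indepFun hij) hid
  have he : ∫ s, g (s 0) ∂Measure.infinitePi (fun _ : ℕ => ν) = ∫ b, g b ∂ν := by
    conv_rhs => rw [← (hmp 0).map_eq]
    rw [integral_map (hmp 0).measurable.aemeasurable]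
    exact hg.aestronglyMeasurable
  simpa only [he] using this

theorem tendsto_ratio {β : Type*} (s : ℕ → β) (H G D : β → ℝ) (mH mG mD : ℝ) (hm : 0 < mH)
    (hH : Tendsto (fun n : ℕ => (∑ i ∈ range n, H (s i)) / n) atTop (𝓝 mH))
    (hG : Tendsto (fun n : ℕ => (∑ i ∈ range n, G (s i)) / n) atTop (𝓝 mG))
    (hD : Tendsto (fun n : ℕ => (∑ i ∈ range n, D (s i)) / n) atTop (𝓝 mD))
    (y h : ℕ → ℝ) (J : ℕ → ℕ) (hJ : Tendsto J atTop atTop)
    (hy : ∀ n, |y n - ∑ i ∈ range (J n), G (s i)| ≤ D (s (J n)))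
    (hh1 : ∀ n, ∑ i ∈ range (J n), H (s i) ≤ h n)
    (hh2 : ∀ n, h n ≤ ∑ i ∈ range (J n + 1), H (s i)) :
    Tendsto (fun n => y n / h n) atTop (𝓝 (mG / mH)) := by
  have hsucc : ∀ (F : β → ℝ) (m : ℝ),
      Tendsto (fun n : ℕ => (∑ i ∈ range n, F (s i)) / n) atTop (𝓝 m) →
      Tendsto (fun n : ℕ => (∑ i ∈ range (n + 1), F (s i)) / n) atTop (𝓝 m) := fun F m hF => by
    have h1 : Tendsto (fun n : ℕ => ((n + 1 : ℕ) : ℝ) / n) atTop (𝓝 1) := by
      have := (tendsto_one_div_atTop_nhds_zero_nat (𝕜 := ℝ)).const_add 1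
      rw [add_zero] at this
      refine this.congr' ?_
      filter_upwards [eventually_gt_atTop 0] with n hn
      push_cast
      field_simp
    have h2 := (hF.comp (tendsto_add_atTop_nat 1)).mul h1
    rw [mul_one] at h2
    refine h2.congr' ?_
    filter_upwards [eventually_gt_atTop 0] with n hn
    simp only [Function.comp_apply]
    field_simp
  have hDz : Tendsto (fun n : ℕ => D (s n) / n) atTop (𝓝 0) := by
    have := (hsucc D mD hD).sub hD
    rw [sub_self] at this
    refine this.congr fun n => ?_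
    rw [sum_range_succ, add_div, add_sub_cancel_left]
  have hden : Tendsto (fun n => h n / (J n : ℝ)) atTop (𝓝 mH) :=
    tendsto_of_tendsto_of_tendsto_of_le_of_le (hH.comp hJ) ((hsucc H mH hH).comp hJ)
      (fun n => div_le_div_of_nonneg_right (hh1 n) (Nat.cast_nonneg _))
      (fun n => div_le_div_of_nonneg_right (hh2 n) (Nat.cast_nonneg _))
  have hnum : Tendsto (fun n => y n / (J n : ℝ)) atTop (𝓝 mG) := by
    have hd0 : Tendsto (fun n => (y n - ∑ i ∈ range (J n), G (s i)) / (J n : ℝ)) atTop (𝓝 0) := by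
      refine squeeze_zero_norm (fun n => ?_) (hDz.comp hJ)
      rw [Real.norm_eq_abs, abs_div, Nat.abs_cast]
      exact div_le_div_of_nonneg_right (hy n) (Nat.cast_nonneg _)
    have := hd0.add (hG.comp hJ)
    rw [zero_add] at this
    refine this.congr fun n => ?_
    simp only [Function.comp_apply]
    ring
  refine (hnum.div hden hm.ne').congr' ?_
  filter_upwards [hJ.eventually (eventually_gt_atTop 0)] with n hn
  have : (J n : ℝ) ≠ 0 := by exact_mod_cast hn.ne'
  simp only [Pi.div_apply]
  rw [div_div_div_cancel_right₀ this]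

/-- The ratio of `Y` to the height converges. -/
def Ratio (u : ℝ) : Set (ℕ → Fin k) :=
  {t | Tendsto (fun n => Y (pos v t n) / ht (pos v t n)) atTop (𝓝 u)}

theorem measurableSet_ratio (u : ℝ) : MeasurableSet (Ratio v ht Y u) :=
  measurableSet_tendsto _ fun n => (measurable_height v Y n).div (measurable_height v ht n)

theorem ratio_invariant (u : ℝ) (t : ℕ → Fin k) :
    t ∈ up v ht ∩ Ratio v ht Y u ↔ (fun i => t (i + 1)) ∈ up v ht ∩ Ratio v ht Y u := by
  simp only [Set.mem_inter_iff, ← up_invariant v ht t]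
  refine and_congr_right fun hup => ?_
  show Tendsto _ atTop _ ↔ Tendsto _ atTop _
  rw [← tendsto_add_atTop_iff_nat (f := fun n => Y (pos v t n) / ht (pos v t n)) 1]
  set t' := fun i => t (i + 1)
  have hp : ∀ n, pos v t (n + 1) = pos v t' n + v (t 0) := fun n => by
    simp [pos, t', sum_range_succ']
  have hup' : Tendsto (fun n => ht (pos v t' n)) atTop atTop := (up_invariant v ht t).1 hup
  have hup1 : Tendsto (fun n => ht (pos v t (n + 1))) atTop atTop :=
    (tendsto_add_atTop_iff_nat (f := fun n => ht (pos v t n)) 1).2 hup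
  simp only [hp, map_add] at hup1 ⊢
  constructor <;> intro h
  · have h1 : Tendsto (fun n => 1 + ht (v (t 0)) / ht (pos v t' n)) atTop (𝓝 1) := by
      simpa using (hup'.const_div_atTop (ht (v (t 0)))).const_add 1
    have := (h.mul h1).sub (hup'.const_div_atTop (Y (v (t 0))))
    rw [mul_one, sub_zero] at this
    refine this.congr' ?_
    filter_upwards [hup'.eventually (eventually_gt_atTop 0),
      hup1.eventually (eventually_gt_atTop 0)] with n h1 h2
    field_simp
    ring
  · have h1 : Tendsto (fun n => 1 - ht (v (t 0)) / (ht (pos v t' n) + ht (v (t 0)))) atTop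
        (𝓝 1) := by
      simpa using (hup1.const_div_atTop (ht (v (t 0)))).const_sub 1
    have := (h.mul h1).add (hup1.const_div_atTop (Y (v (t 0))))
    rw [mul_one, add_zero] at this
    refine this.congr' ?_
    filter_upwards [hup'.eventually (eventually_gt_atTop 0),
      hup1.eventually (eventually_gt_atTop 0)] with n h1 h2
    field_simp
    ring

/-- On an escape event every functional grows linearly in the height. -/
theorem exists_ratio (h : law v μ (up v ht) ≠ 0) :
    ∃ u, law v μ (up v ht \ Ratio v ht Y u) = 0 := by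
  obtain ⟨ν, hνp, hν, hpos, hint, hD⟩ := exists_block_law_integrable v μ ht h
  have hs := stayUp_ne_zero v μ ht h
  have := isProbability_upLaw v μ ht hs
  set mH := ∫ b, bH v ht b ∂ν with hmH
  have hmH0 : 0 < mH := by
    rw [hmH, integral_pos_iff_support_of_nonneg_ae (hpos.mono fun b hb => hb.le) hint]
    refine pos_iff_ne_zero.2 fun h0 => ?_
    have : ∀ᵐ b ∂ν, False := by
      filter_upwards [hpos, measure_eq_zero_iff_ae_notMem.1 h0] with b h1 h2
      exact h2 h1.ne'
    obtain ⟨b, hb⟩ := this.exists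
    exact hb
  have hDY := hD Y
  have hYi : Integrable (bY v Y) ν :=
    hDY.mono measurable_from_top.aestronglyMeasurable (ae_of_all _ fun b => by
      rw [Real.norm_eq_abs, Real.norm_eq_abs, abs_of_nonneg (bD_nonneg Y v b)]
      exact abs_bY_le Y v b)
  refine ⟨(∫ b, bY v Y b ∂ν) / mH, ?_⟩
  have hΦ : Measurable fun (t : ℕ → Fin k) (i : ℕ) => block v ht i t :=
    measurable_pi_lambda _ fun i => measurable_block v ht i
  have hlim : ∀ g : Blk k → ℝ, Integrable g ν → ∀ᵐ t ∂upLaw v μ ht,
      Tendsto (fun n : ℕ => (∑ i ∈ range n, g (block v ht i t)) / n) atTop (𝓝 (∫ b, g b ∂ν)) :=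
    fun g hg => ae_of_ae_map hΦ.aemeasurable (hν ▸ mean_tendsto ν measurable_from_top hg)
  have hae : ∀ᵐ t ∂upLaw v μ ht, t ∈ Ratio v ht Y ((∫ b, bY v Y b ∂ν) / mH) := by
    filter_upwards [regTime_reg v μ ht hs, hlim _ hint, hlim _ hYi, hlim _ hDY] with t hr h1 h2 h3
    have hR : Regular v ht t := hr
    choose J hJ1 hJ2 using hR.exists_block
    have hJ : Tendsto J atTop atTop := tendsto_atTop.2 fun b => by
      filter_upwards [eventually_ge_atTop (regTime v ht b t)] with m hm
      by_contra hlt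
      exact absurd (hm.trans_lt (hJ2 m)) (not_lt.2 (hR.strictMono.monotone (not_le.1 hlt)))
    refine tendsto_ratio (fun i => block v ht i t) (bH v ht) (bY v Y) (bD v Y) mH _ _ hmH0 h1 h2 h3
      _ _ J hJ (fun n => ?_) (fun n => ?_) (fun n => ?_)
    · rw [hR.sum_bY]; exact hR.abs_sub_le Y (hJ1 n) (hJ2 n).le
    · rw [hR.sum_bH]; exact hR.le_height (hJ1 n)
    · rw [hR.sum_bH]; exact hR.height_le (hJ2 n).le
  set B := up v ht ∩ Ratio v ht Y ((∫ b, bY v Y b ∂ν) / mH)
  have hB : MeasurableSet B := (measurableSet_up v ht).inter (measurableSet_ratio v ht Y _)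
  rcases conditional_zero_one v μ ht hB (ratio_invariant v ht Y _) with h0 | h0
  · refine absurd (measure_mono_null ?_ h0) (?_ : law v μ (StayUp v ht ∩ B) ≠ 0)
    · exact fun t ht' => ⟨ht'.1.2, ht'.2⟩
    · intro hz
      have h1 : upLaw v μ ht B = 1 := by
        refine (prob_compl_eq_zero_iff hB).1 ?_
        refine measure_eq_zero_iff_ae_notMem.2 ?_
        filter_upwards [hae, regTime_reg v μ ht hs] with t h1 h2 hc
        exact hc ⟨h2.1.2, h1⟩
      rw [upLaw, Measure.smul_apply, Measure.restrict_apply hB, Set.inter_comm, hz,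
        smul_zero] at h1
      exact zero_ne_one h1
  · refine measure_mono_null ?_ h0
    exact fun t ht' => ⟨ht'.1, fun h' => ht'.2 h'.2⟩

/-- The unit vector of a signed axis. -/
noncomputable def axis (j : Fin d) (σ : ℝ) : Fin d → ℝ := Pi.single j σ

theorem dot_axis (j : Fin d) (σ : ℝ) (z : Site d) : dot (axis j σ) z = σ * (z j : ℝ) := by
  show ∑ i, axis j σ i * (z i : ℝ) = _
  rw [sum_eq_single j (fun i _ hi => by simp [axis, hi]) (by simp)]
  simp [axis]

/-- A deterministic asymptotic direction on every escape event. -/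
theorem exists_direction (l : Fin d → ℝ) (h : law v μ (Escape v l) ≠ 0) :
    ∃ u : Fin d → ℝ, ∑ j, l j * u j = 1 ∧
      law v μ (Escape v l \ {t | ∀ j, Tendsto
        (fun n => (pos v t n j : ℝ) / ∑ i, l i * (pos v t n i : ℝ)) atTop (𝓝 (u j))}) = 0 := by
  rw [escape_eq] at h ⊢
  choose u hu using fun j => exists_ratio v μ (dot l) (dot (axis j 1)) h
  have hnull : law v μ (up v (dot l) \ {t | ∀ j, Tendsto
      (fun n => (pos v t n j : ℝ) / ∑ i, l i * (pos v t n i : ℝ)) atTop (𝓝 (u j))}) = 0 := by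
    refine measure_mono_null ?_ (measure_iUnion_null hu)
    rintro t ⟨h1, h2⟩
    simp only [Set.mem_setOf_eq, not_forall] at h2
    obtain ⟨j, hj⟩ := h2
    refine Set.mem_iUnion.2 ⟨j, h1, fun hr => hj ?_⟩
    refine hr.congr fun n => ?_
    rw [dot_axis, one_mul]
    rfl
  refine ⟨u, ?_, hnull⟩
  obtain ⟨t, htu, htr⟩ : ∃ t, t ∈ up v (dot l) ∧ ∀ j, Tendsto
      (fun n => (pos v t n j : ℝ) / ∑ i, l i * (pos v t n i : ℝ)) atTop (𝓝 (u j)) := by
    by_contra hc
    push Not at hc
    refine h (measure_mono_null (fun t ht' => ?_) hnull)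
    exact ⟨ht', fun h' => (not_forall.2 (hc t ht')) h'⟩
  have hsum := tendsto_finsetSum (univ : Finset (Fin d)) fun j _ => (htr j).const_mul (l j)
  refine tendsto_nhds_unique hsum (tendsto_const_nhds.congr' ?_)
  filter_upwards [(show Tendsto _ atTop atTop from htu).eventually (eventually_gt_atTop 0)]
    with n hn
  have hn' : (0 : ℝ) < ∑ i, l i * (pos v t n i : ℝ) := hn
  simp only [← mul_div_assoc, ← sum_div]
  rw [div_self hn'.ne']

/-- The zero-one law along the coordinate axes gives it in every direction. -/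
theorem zero_one_of_axes
    (hax : ∀ j, ∀ σ ∈ ({1, -1} : Set ℝ),
      law v μ (Escape v (axis j σ)) = 0 ∨ law v μ (Escape v (axis j σ)) = 1)
    (l : Fin d → ℝ) : law v μ (Escape v l) = 0 ∨ law v μ (Escape v l) = 1 := by
  by_cases h : law v μ (Escape v l) = 0
  · exact Or.inl h
  right
  obtain ⟨u, hu1, hu⟩ := exists_direction v μ l h
  obtain ⟨j, hj⟩ : ∃ j, l j * u j ≠ 0 := by
    by_contra hc
    push Not at hc
    simp [hc] at hu1
  have huj : u j ≠ 0 := fun h0 => hj (by simp [h0])
  obtain ⟨σ, hσ, hσu⟩ : ∃ σ ∈ ({1, -1} : Set ℝ), 0 < σ * u j := by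
    rcases lt_or_gt_of_ne huj with h' | h'
    · exact ⟨-1, by simp, by linarith⟩
    · exact ⟨1, by simp, by linarith⟩
  have hsub : law v μ (Escape v l \ Escape v (axis j σ)) = 0 := by
    refine measure_mono_null ?_ hu
    rintro t ⟨h1, h2⟩
    refine ⟨h1, fun hr => h2 ?_⟩
    rw [escape_eq] at h1 ⊢
    have hlim := (show Tendsto _ atTop atTop from h1).atTop_mul_pos hσu ((hr j).const_mul σ)
    refine hlim.congr' ?_
    filter_upwards [(show Tendsto _ atTop atTop from h1).eventually (eventually_gt_atTop 0)]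
      with n hn
    rw [dot_axis]
    have hn' : (0 : ℝ) < ∑ i, l i * (pos v t n i : ℝ) := hn
    show (∑ i, l i * (pos v t n i : ℝ)) * _ = _
    field_simp
  have hpos : law v μ (Escape v (axis j σ)) ≠ 0 := fun h0 => by
    refine h (measure_mono_null ?_ (measure_union_null hsub h0))
    exact fun t ht' => (em (t ∈ Escape v (axis j σ))).symm.imp (fun h' => ⟨ht', h'⟩) id
  have hone := (hax j σ hσ).resolve_left hpos
  have hm := measurableSet_up v (dot l)
  have hmj := measurableSet_up v (dot (axis j σ))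
  rw [escape_eq] at h hsub hone ⊢
  rw [escape_eq] at hsub
  have hc := (prob_compl_eq_zero_iff hmj).2 hone
  rcases conditional_zero_one v μ (dot (axis j σ)) hm (up_invariant v (dot l)) with h0 | h0
  · refine absurd (measure_mono_null ?_ (measure_union_null h0 hc)) h
    exact fun t ht' => (em (t ∈ up v (dot (axis j σ)))).imp (fun h' => ⟨h', ht'⟩) id
  · rw [← prob_compl_eq_zero_iff hm]
    refine measure_mono_null ?_ (measure_union_null h0 hc)
    exact fun t ht' => (em (t ∈ up v (dot (axis j σ)))).imp (fun h' => ⟨h', ht'⟩) id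

end Vale.Agent.P147.Dir
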