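import Vale.Agent.P147.Dir.Defs

/-!
P147: renewal at records of a mixed functional and the gain inequality.
-/

open MeasureTheory Filter Finset
open scoped ENNReal

namespace Vale.Agent.P147.Dir

open Vale.Agent.P147.Cond

variable {d k : ℕ} [NeZero k] (v : Fin k → Site d) (μ : Measure (Row k)) [IsProbabilityMeasure μ]
  (ht f : Site d →+ ℝ)

theorem shift_pos (t : ℕ → Fin k) (n m : ℕ) :
    pos v t (n + m) = pos v t n + pos v (shift n t) m := pos_add v t n m

/-- An event that keeps to a set of sites is independent of a past avoiding that set. -/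
theorem law_fresh {n : ℕ} {s : ℕ → Fin k} (U : Set (Site d))
    (hrec : ∀ j < n, pos v s j - pos v s n ∉ U) {B : Set (ℕ → Fin k)} (hB : MeasurableSet B)
    (hBD : ∀ t ∈ B, ∀ m, pos v t m ∈ U) :
    law v μ {t | (∀ i < n, t i = s i) ∧ shift n t ∈ B} =
      law v μ {t | ∀ i < n, t i = s i} * law v μ B := by
  set x := pos v s n
  set V : Set (Site d) := {z | z - x ∈ U} with hV
  have hcongr : ∀ (ω ω' : Site d → Row k) (u : ℕ → ℝ), (∀ z ∈ U, ω z = ω' z) →
      steps v ω u ∈ B → steps v ω u = steps v ω' u := fun ω ω' u h hu => by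
    have h0 : ∀ m, walk v ω u m ∈ U := fun m => by rw [← pos_steps]; exact hBD _ hu m
    have hw : ∀ m, walk v ω u m = walk v ω' u m := fun m => by
      induction m with
      | zero => rfl
      | succ m ih => simp only [walk]; rw [h _ (h0 m), ih]
    funext m
    simp only [steps]
    rw [h _ (h0 m), hw]
  show law v μ {t | (∀ i < n, t i = s i) ∧ (fun i => t (n + i)) ∈ B} = _
  rw [law_apply v μ (measurableSet_prefix_inter n s hB), law_prefix,
    ← lintegral_quenched_shift v μ x hB]
  have hw : ∀ a, weight v s n (comb V a) = weight v s n a.2 := fun a =>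
    prod_congr rfl fun i hi => by
      have : pos v s i ∉ V := hrec i (mem_range.1 hi)
      rw [comb, if_neg this]
  have hg : ∀ a, quenched v (fun z => comb V a (x + z)) B =
      quenched v (fun z => a.1 (x + z)) B := fun a => by
    have hz : ∀ z ∈ U, comb V a (x + z) = a.1 (x + z) := fun z hz => by
      have : x + z ∈ V := by simpa [hV] using hz
      rw [comb, if_pos this]
    refine congrArg uLaw (Set.ext fun u => ⟨fun hu => ?_, fun hu => ?_⟩)
    · show steps v _ u ∈ B
      rw [← hcongr _ _ _ hz hu]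
      exact hu
    · show steps v _ u ∈ B
      rw [← hcongr _ _ _ (fun z h => (hz z h).symm) hu]
      exact hu
  have hm : Measurable fun ω : Site d → Row k => quenched v (fun z => ω (x + z)) B :=
    (measurable_quenched v hB).comp (measurable_pi_lambda _ fun z => measurable_pi_apply _)
  simp only [quenched_prefix v _ s n hB]
  have hmap : ∫⁻ ω, weight v s n ω * quenched v (fun z => ω (x + z)) B ∂envLaw μ =
      ∫⁻ a, weight v s n (comb V a) * quenched v (fun z => comb V a (x + z)) B
        ∂(envLaw μ).prod (envLaw μ) := by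
    conv_lhs => rw [← map_comb μ V]
    exact lintegral_map (f := fun ω => weight v s n ω * quenched v (fun z => ω (x + z)) B)
      ((measurable_weight v s n).mul hm) (measurable_comb V)
  simp only [hw, hg] at hmap
  rw [hmap, mul_comm (∫⁻ ω, weight v s n ω ∂_),
    ← lintegral_prod_mul hm.aemeasurable (measurable_weight v s n).aemeasurable]
  exact lintegral_congr fun a => mul_comm _ _

theorem measurable_pos (n : ℕ) : Measurable fun t : ℕ → Fin k => pos v t n := by
  simp only [pos]
  exact Finset.measurable_sum _ fun i _ => (measurable_of_finite v).comp (measurable_pi_apply i)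

theorem measurableSet_pos_mem (n : ℕ) (S : Set (Site d)) :
    MeasurableSet {t : ℕ → Fin k | pos v t n ∈ S} :=
  (measurable_pos v n) (Set.to_countable S).measurableSet

theorem measurableSet_StayUp : MeasurableSet (StayUp v ht) :=
  (measurableSet_stay v ht).inter (measurableSet_up v ht)

theorem measurableSet_Gain (top x : ℝ) : MeasurableSet (Gain v ht f top x) := by
  have : Gain v ht f top x = ⋃ n, ((⋂ (j : ℕ) (_ : j ≤ n),
      {t | pos v t j ∈ {z | 0 ≤ ht z ∧ ht z ≤ top}}) ∩ {t | pos v t n ∈ {z | x < f z}}) := by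
    ext t
    simp [Gain]
  rw [this]
  exact .iUnion fun n => (MeasurableSet.iInter fun j => .iInter fun _ =>
    measurableSet_pos_mem v j _).inter (measurableSet_pos_mem v n _)

theorem measurableSet_Cone (i0 : Fin k) (top W : ℝ) :
    MeasurableSet (Cone v ht f i0 top W) := by
  have : Cone v ht f i0 top W = StayUp v ht ∩ ⋂ m,
      ({t | pos v t m ∈ {z | 0 ≤ f (v i0) + f z ∨ top < ht z}} ∩
        ((⋃ (j : ℕ) (_ : j ≤ m), {t | pos v t j ∈ {z | top < ht z}}) ∪
          {t | pos v t m ∈ {z | f (v i0) + f z ≤ W}})) := by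
    ext t
    simp only [Cone, Set.mem_inter_iff, Set.mem_setOf_eq, Set.mem_iInter, Set.mem_union,
      Set.mem_iUnion, exists_prop]
    refine and_congr_right fun _ => forall_congr' fun m => and_congr_right fun _ => ?_
    rw [imp_iff_not_or]
    push Not
    rfl
  rw [this]
  exact (measurableSet_StayUp v ht).inter <| .iInter fun m => (measurableSet_pos_mem v m _).inter
    ((MeasurableSet.iUnion fun j => .iUnion fun _ => measurableSet_pos_mem v j _).union
      (measurableSet_pos_mem v m _))

/-- The success event at a record. -/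
def Good (i0 : Fin k) (top W : ℝ) : Set (ℕ → Fin k) :=
  {t | t 0 = i0 ∧ shift 1 t ∈ Cone v ht f i0 top W}

theorem law_Good (i0 : Fin k) (hi0 : 0 < ht (v i0)) (top W : ℝ) :
    law v μ (Good v ht f i0 top W) =
      law v μ {t | t 0 = i0} * law v μ (Cone v ht f i0 top W) := by
  have h := law_record v μ ht (n := 1) (s := fun _ => i0) (fun j hj => by
      obtain rfl : j = 0 := by omega
      simp [pos, hi0]) (measurableSet_Cone v ht f i0 top W) fun t ht' => ht'.1.1
  simp only [Nat.lt_one_iff, forall_eq] at h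
  exact h

theorem measurableSet_Good (i0 : Fin k) (top W : ℝ) :
    MeasurableSet (Good v ht f i0 top W) := by
  have h : Measurable (shift 1 : (ℕ → Fin k) → ℕ → Fin k) :=
    measurable_pi_lambda _ fun i => measurable_pi_apply (1 + i)
  exact ((measurableSet_singleton i0).preimage (measurable_pi_apply 0)).inter
    ((measurableSet_Cone v ht f i0 top W).preimage h)

theorem up_shift (t : ℕ → Fin k) (n : ℕ) : shift n t ∈ up v ht ↔ t ∈ up v ht :=
  shift_invariant (fun s => up_invariant v ht s) n t

theorem Good_facts {i0 : Fin k} {top W : ℝ} (hi0 : 0 < ht (v i0)) (hW : 0 ≤ W) {t : ℕ → Fin k}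
    (hg : t ∈ Good v ht f i0 top W) :
    t ∈ StayUp v ht ∧ ∀ m, (0 ≤ f (pos v t m) ∨ top < ht (pos v t m)) ∧
      ((∀ j ≤ m, ht (pos v t j) ≤ top) → f (pos v t m) ≤ W) := by
  obtain ⟨h0, ⟨hs, hu⟩, hc⟩ := hg
  have hp : ∀ m, pos v t (1 + m) = v i0 + pos v (shift 1 t) m := fun m => by
    rw [shift_pos]; simp [pos, h0]
  refine ⟨⟨fun m => ?_, (up_shift v ht t 1).1 hu⟩, fun m => ?_⟩
  · rcases m with _ | m
    · simp [pos]
    · rw [add_comm m 1, hp, map_add]; exact add_nonneg hi0.le (hs m)
  · rcases m with _ | m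
    · simp [pos, hW]
    · rw [add_comm m 1, hp, map_add, map_add]
      refine ⟨(hc m).1.imp id fun h => h.trans_le (le_add_of_nonneg_left hi0.le), fun hm => ?_⟩
      refine (hc m).2 fun j hj => ?_
      have := hm (1 + j) (by omega)
      rw [hp, map_add] at this
      linarith

/-- Crossing of level `x` at time `n`. -/
def Cross (top x : ℝ) (n : ℕ) : Set (ℕ → Fin k) :=
  {t | (∀ j ≤ n, 0 ≤ ht (pos v t j) ∧ ht (pos v t j) ≤ top) ∧ x < f (pos v t n) ∧
    ∀ j < n, f (pos v t j) ≤ x}

theorem Cross_congr (top x : ℝ) (n : ℕ) : ∀ t t' : ℕ → Fin k, (∀ i < n, t i = t' i) →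
    t ∈ Cross v ht f top x n → t' ∈ Cross v ht f top x n := by
  rintro t t' h ⟨h1, h2, h3⟩
  refine ⟨fun j hj => ?_, ?_, fun j hj => ?_⟩
  · rw [← pos_congr v h hj]; exact h1 j hj
  · rw [← pos_congr v h le_rfl]; exact h2
  · rw [← pos_congr v h hj.le]; exact h3 j hj

theorem iUnion_Cross (top x : ℝ) : ⋃ n, Cross v ht f top x n = Gain v ht f top x := by
  classical
  ext t
  simp only [Set.mem_iUnion]
  refine ⟨fun ⟨n, h1, h2, _⟩ => ⟨n, h1, h2⟩, fun ⟨n, h1, h2⟩ => ?_⟩
  have hex : ∃ j, x < f (pos v t j) := ⟨n, h2⟩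
  exact ⟨Nat.find hex, fun j hj => h1 j (hj.trans (Nat.find_min' hex h2)), Nat.find_spec hex,
    fun j hj => not_lt.1 (Nat.find_min hex hj)⟩

theorem disjoint_Cross (top x : ℝ) :
    Pairwise (Function.onFun Disjoint (Cross v ht f top x)) := fun a b hab => by
  refine Set.disjoint_left.2 fun t ha hb => ?_
  rcases lt_or_gt_of_ne hab with h | h
  · exact (hb.2.2 a h).not_gt ha.2.1
  · exact (ha.2.2 b h).not_gt hb.2.1

theorem law_Gain_Good (i0 : Fin k) (hi0 : 0 < ht (v i0)) (top x W : ℝ) (hW : 0 ≤ W) :
    law v μ (⋃ n, Cross v ht f top x n ∩ {t | shift n t ∈ Good v ht f i0 top W}) =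
      law v μ (Gain v ht f top x) * law v μ (Good v ht f i0 top W) := by
  classical
  have hG := measurableSet_Good v ht f i0 top W
  have hm : ∀ n, MeasurableSet (Cross v ht f top x n) := fun n =>
    measurableSet_of_prefix n (Cross_congr v ht f top x n)
  have hsh : ∀ n, MeasurableSet {t : ℕ → Fin k | shift n t ∈ Good v ht f i0 top W} := fun n =>
    (measurable_pi_lambda _ fun i => measurable_pi_apply (n + i)) hG
  rw [← iUnion_Cross, measure_iUnion (disjoint_Cross v ht f top x) hm,
    measure_iUnion (fun a b hab => (disjoint_Cross v ht f top x hab).mono Set.inter_subset_left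
      Set.inter_subset_left) (fun n => (hm n).inter (hsh n)), ← ENNReal.tsum_mul_right]
  refine tsum_congr fun n => ?_
  have h1 := decompose v μ n (Cross_congr v ht f top x n) _ hG
  have h2 := decompose v μ n (Cross_congr v ht f top x n) Set.univ .univ
  simp only [Set.mem_univ, Set.setOf_true, Set.inter_univ, and_true] at h2
  show law v μ (Cross v ht f top x n ∩ {t | (fun i => t (n + i)) ∈ _}) = _
  rw [h1, h2, sum_mul]
  refine sum_congr rfl fun w _ => ?_
  split_ifs with hw
  · obtain ⟨hwin, hx, hlow⟩ := hw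
    refine law_fresh v μ {z | 0 ≤ f z ∨ top - ht (pos v (ext' w) n) < ht z} (fun j hj hmem => ?_)
      hG fun t htg m => ?_
    · simp only [Set.mem_setOf_eq, map_sub] at hmem
      rcases hmem with h | h
      · linarith [hlow j hj]
      · linarith [(hwin j hj.le).2]
    · refine ((Good_facts v ht f hi0 hW htg).2 m).1.imp id fun h => ?_
      have := (hwin n le_rfl).1
      linarith
  · rw [zero_mul]

/-- One step of the geometric decay. -/
theorem law_Gain_step (i0 : Fin k) (hi0 : 0 < ht (v i0)) (top x W J : ℝ) (hx : 0 ≤ x)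
    (hW : 0 ≤ W) (hJ0 : 0 ≤ J) (hJ : ∀ i, f (v i) ≤ J) :
    law v μ (Gain v ht f top (x + (W + J))) ≤
      (1 - law v μ (Good v ht f i0 top W)) * law v μ (Gain v ht f top x) := by
  set S := ⋃ n, Cross v ht f top x n ∩ {t | shift n t ∈ Good v ht f i0 top W}
  have hS : S ⊆ Gain v ht f top x := by
    rw [← iUnion_Cross]
    exact Set.iUnion_mono fun n => Set.inter_subset_left
  have hSm : MeasurableSet S := .iUnion fun n =>
    (measurableSet_of_prefix n (Cross_congr v ht f top x n)).inter
      ((measurable_pi_lambda _ fun i => measurable_pi_apply (n + i))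
        (measurableSet_Good v ht f i0 top W))
  have hsub : Gain v ht f top (x + (W + J)) ⊆ Gain v ht f top x \ S := by
    rintro t ⟨m, hm1, hm2⟩
    refine ⟨⟨m, hm1, by linarith⟩, fun hs => ?_⟩
    obtain ⟨n, hcr, hgood⟩ := Set.mem_iUnion.1 hs
    have hn1 : ∀ j ≤ n, f (pos v t j) ≤ x + J ∨ f (pos v t j) ≤ x := fun j hj => by
      rcases Nat.lt_or_ge j n with h | h
      · exact Or.inr (hcr.2.2 j h)
      · obtain rfl : j = n := le_antisymm hj h
        left
        rcases j with _ | j
        · exact absurd hcr.2.1 (by simp [pos, hx])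
        · rw [pos, sum_range_succ, ← pos, map_add]
          linarith [hcr.2.2 j (Nat.lt_succ_self j), hJ (t j)]
    rcases le_or_gt m n with h | h
    · rcases hn1 m h with h' | h' <;> linarith
    · obtain ⟨q, rfl⟩ := Nat.exists_eq_add_of_le h.le
      have := ((Good_facts v ht f hi0 hW hgood).2 q).2 fun j hj => by
        have h' := (hm1 (n + j) (by omega)).2
        rw [shift_pos, map_add] at h'
        linarith [(hcr.1 n le_rfl).1]
      rw [shift_pos, map_add] at hm2
      rcases hn1 n le_rfl with h' | h' <;> linarith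
  calc law v μ (Gain v ht f top (x + (W + J))) ≤ law v μ (Gain v ht f top x \ S) :=
        measure_mono hsub
    _ = law v μ (Gain v ht f top x) - law v μ S :=
        measure_sdiff hS hSm.nullMeasurableSet (measure_ne_top _ _)
    _ = _ := by
        rw [show law v μ S = _ from law_Gain_Good v μ ht f i0 hi0 top x W hW,
          ENNReal.sub_mul fun _ _ => measure_ne_top _ _, one_mul,
          mul_comm (law v μ (Gain v ht f top x))]

/-- A gain followed by a success is a walk without backtracking. -/
theorem law_Gain_le_StayUp (i0 : Fin k) (hi0 : 0 < ht (v i0)) (top x W : ℝ) (hW : 0 ≤ W) :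
    law v μ (Gain v ht f top x) * law v μ (Good v ht f i0 top W) ≤
      law v μ (StayUp v ht ∩ Gain v ht f top x) := by
  rw [← law_Gain_Good v μ ht f i0 hi0 top x W hW]
  refine measure_mono (Set.iUnion_subset fun n t ht' => ⟨⟨fun m => ?_, ?_⟩, ?_⟩)
  · rcases le_or_gt m n with h | h
    · exact (ht'.1.1 m h).1
    · obtain ⟨q, rfl⟩ := Nat.exists_eq_add_of_le h.le
      rw [shift_pos, map_add]
      exact add_nonneg (ht'.1.1 n le_rfl).1 ((Good_facts v ht f hi0 hW ht'.2).1.1 q)
  · exact (up_shift v ht t n).1 (Good_facts v ht f hi0 hW ht'.2).1.2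
  · rw [← iUnion_Cross]
    exact Set.mem_iUnion.2 ⟨n, ht'.1⟩

/-- The gain inequality. -/
theorem gain_le (i0 : Fin k) (hi0 : 0 < ht (v i0)) (top x W J : ℝ) (hx : 0 ≤ x) (hW : 0 ≤ W)
    (hJ0 : 0 ≤ J) (hJ : ∀ i, f (v i) ≤ J) (n : ℕ) :
    law v μ (Gain v ht f top (x + n * (W + J))) *
        (law v μ {t | t 0 = i0} * law v μ (Cone v ht f i0 top W)) ≤
      (1 - law v μ {t | t 0 = i0} * law v μ (Cone v ht f i0 top W)) ^ n *
        law v μ (StayUp v ht ∩ Gain v ht f top x) := by
  rw [← law_Good v μ ht f i0 hi0 top W]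
  induction n with
  | zero => simpa using law_Gain_le_StayUp v μ ht f i0 hi0 top x W hW
  | succ n ih =>
    have := law_Gain_step v μ ht f i0 hi0 top (x + n * (W + J)) W J
      (add_nonneg hx (by positivity)) hW hJ0 hJ
    rw [show x + n * (W + J) + (W + J) = x + (n + 1 : ℕ) * (W + J) by push_cast; ring] at this
    calc _ ≤ (1 - law v μ (Good v ht f i0 top W)) *
          law v μ (Gain v ht f top (x + n * (W + J))) * law v μ (Good v ht f i0 top W) :=
          mul_le_mul_left this _
      _ ≤ _ := by
          rw [mul_assoc, pow_succ', mul_assoc]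
          gcongr

end Vale.Agent.P147.Dir
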